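import Vale.Agent.P281.H167.LC.Loc
import Vale.Agent.P281.H368.MFS.Defs

/-! P281, theorem NU (numerical dimension, `K_X + Δ` nef): the rows of the proof, as propositions. -/

open scoped Manifold ContDiff Topology ComplexOrder
open Set Filter MeasureTheory Vale.Agent.P281.J Vale.Agent.P272.K Vale.Agent.P272.K.AMP
open Vale.Agent.P299
open Vale.Agent.P299.H882 (J xi qf detR)
open Vale.Agent.P272.K.INT (IsClosedForm intX)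

noncomputable section

namespace Vale.Agent.P281.H342.NU

open Vale.Agent.P281.H713 Vale.Agent.P281.H713.SA Vale.Agent.P281.H713.KD Vale.Agent.P281.H716
open Vale.Agent.P281.H167.GM (mixX mixD addF phiD)
open Vale.Agent.P281.H167.LC (vN)

section defs

variable {n p d M : ℕ} {X : Type} [TopologicalSpace X] [ChartedSpace (Cm n) X]

/-- `curvK` is `≥ - (C δ/(ρ + δ) + ε₀) χ` -/
def CurvKN (φ : Chart n X → Cm n → ℝ) (m : ℕ) (ρ : X → ℝ) (dl : Fin M → ℝ)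
    (R : Fin M → D.FormM n X) (C ε₀ : ℝ) (χ : D.FormM n X) : Prop :=
  ∀ δ : ℝ, 0 < δ → ∀ e x, At e x → (curvK φ m ρ δ dl R e (e x) +
    ((C * (δ / (ρ x + δ)) + ε₀ : ℝ) : ℂ) • χ e (e x)).PosSemidef

/-- `K_X + Δ` is pseudoeffective, with these approximations -/
def PsefK (φ : Chart n X → Cm n → ℝ) (m : ℕ) (dl : Fin M → ℝ) (R : Fin M → D.FormM n X)
    (χ : D.FormM n X) : Prop :=
  ∀ ε₀ : ℝ, 0 < ε₀ → ∃ (ρ : X → ℝ) (C : ℝ), SmoothFn (n := n) ρ ∧ (∀ x, 0 ≤ ρ x) ∧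
    Dense {x | 0 < ρ x} ∧ 0 ≤ C ∧ CurvKN φ m ρ dl R C ε₀ χ

/-- the closed form `θ` is nef -/
def IsNef (χ θ : D.FormM n X) : Prop :=
  IsClosedForm θ ∧ (∀ e x, At e x → (θ e (e x)).IsHermitian) ∧
    ∀ ε : ℝ, 0 < ε → ∃ ψ : X → ℝ, SmoothFn (n := n) ψ ∧ ∀ e x, At e x →
      (θ e (e x) + hess ψ e (e x) + (ε : ℂ) • χ e (e x)).PosSemidef

/-- the bordered determinant; it is `det A * gramD b A` if `A` is invertible -/
def bdet (b : Matrix (Fin p) (Fin n) ℂ) (A : Matrix (Fin n) (Fin n) ℂ) : ℝ :=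
  ((-1) ^ p * (Matrix.fromBlocks A.transpose b.conjTranspose b 0).det).re

/-- the rows of `dy` in the chart `e` -/
def rowsY (y : X → Cm p) (e : Chart n X) (z : Cm n) : Matrix (Fin p) (Fin n) ℂ :=
  Matrix.of fun a i => fderiv ℂ (fun w => y (e.symm w) a) z (Pi.single i 1)

/-- `y : O → ℂ^p` is a holomorphic submersion, proper over `W` -/
structure IsTube (O : Set X) (y : X → Cm p) (W : Set (Cm p)) : Prop where
  isOpen : IsOpen O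
  hol : ∀ x ∈ O, ContMDiffAt 𝓘(ℂ, Cm n) 𝓘(ℂ, Cm p) ω y x
  sub : ∀ x ∈ O, Function.Surjective (mfderiv 𝓘(ℂ, Cm n) 𝓘(ℂ, Cm p) y x)
  openW : IsOpen W
  proper : ∀ L : Set (Cm p), IsCompact L → L ⊆ W → IsCompact {x | x ∈ O ∧ y x ∈ L}

open Classical in
/-- the function `b₀ ∘ y` on `O`, zero off `O` -/
def tubeF (O : Set X) (y : X → Cm p) (b₀ : Cm p → ℝ) (x : X) : ℝ := if x ∈ O then b₀ (y x) else 0

end defs

/-- **Row N1 (Bochner, with an error `ε₀ χ`)**: `H167.LC.BochPartE` with one more term. -/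
def BochPartN : Prop := ∀ (n M : ℕ) (X : Type) [TopologicalSpace X] [T2Space X] [CompactSpace X]
  [ConnectedSpace X] [ChartedSpace (Cm n) X] [IsManifold 𝓘(ℂ, Cm n) ω X]
  (χ : D.FormM n X) (_ : IsKahler χ) (φ : Chart n X → Cm n → ℝ) (_ : IsCanonicalMetric φ)
  (m : ℕ) (_ : 0 < m) (ρ : X → ℝ) (_ : SmoothFn (n := n) ρ) (_ : ∀ x, 0 ≤ ρ x)
  (Dv : Fin M → Set X) (r : Fin M → X → ℝ) (R : Fin M → D.FormM n X)
  (_ : IsBd Dv r R) (dl : Fin M → ℝ) (_ : ∀ i, 0 ≤ dl i) (C ε₀ : ℝ) (_ : 0 ≤ C) (_ : 0 ≤ ε₀)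
  (_ : CurvKN φ m ρ dl R C ε₀ χ) (p μ : ℕ) (K : Fin M → ℕ) (_ : ∀ i, (K i : ℝ) ≤ μ * dl i)
  (N₀ N₁ : D.FormM n X → X → ℝ) (_ : IsDecPair Dv r χ p μ K N₀ N₁),
  ∃ C₂ : ℝ, 0 ≤ C₂ ∧ ∀ a : ℝ, 0 < a →
  ∃ C' : ℝ, 0 ≤ C' ∧ ∀ (β : X → ℝ), Continuous β → (∀ x, 0 ≤ β x) →
    (∀ x, N₀ χ x + N₁ χ x < a → 1 ≤ β x) → ∀ δ ε η : ℝ, 0 < δ → 0 < ε → ε ≤ 1 → 0 ≤ η →
    ∀ (g : D.FormM n X) (c : ℝ), IsKahler g →
      (∀ e x, At e x → Real.log (g e (e x)).det.re =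
        phiK φ m ρ δ (fun i => (1 - η) * dl i) r ε e (e x) + c) →
      ∀ N : D.FormM n X → X → ℝ, N = N₀ ∨ N = N₁ →
      BochF g (fun x => μ * (trX g (curvK φ m ρ δ dl R) x +
          (C * (δ / (ρ x + δ)) + ε₀) * trX g χ x) +
        C' * ∑ i, ε / (r i x + ε) * trX g χ x +
        β x * (∑ i, if K i = 0 then 0 else K i * (trX g (dF (r i) (R i) ε) x + C₂ * trX g χ x)) +
        μ * ∑ i, η * dl i * (trX g (dF (r i) (R i) ε) x + C₂ * trX g χ x))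
        (fun x => N g x * ∏ i, (r i x + ε)⁻¹ ^ K i)

/-- **Row N1' (metrics)**: `H167.LC.StepPartE` for any Kähler form `G`, with the error `ε₀ χ`. -/
def StepPartN : Prop := ∀ (n M : ℕ) (X : Type) [TopologicalSpace X] [T2Space X] [CompactSpace X]
  [ConnectedSpace X] [ChartedSpace (Cm n) X] [IsManifold 𝓘(ℂ, Cm n) ω X]
  (χ : D.FormM n X) (_ : IsKahler χ) (φ : Chart n X → Cm n → ℝ) (_ : IsCanonicalMetric φ)
  (m : ℕ) (_ : 0 < m) (ρ : X → ℝ) (_ : SmoothFn (n := n) ρ) (_ : ∀ x, 0 ≤ ρ x)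
  (Dv : Fin M → Set X) (r : Fin M → X → ℝ) (R : Fin M → D.FormM n X)
  (_ : IsBd Dv r R) (dl : Fin M → ℝ) (_ : ∀ i, 0 ≤ dl i ∧ dl i ≤ 1) (C ε₀ : ℝ) (_ : 0 ≤ C)
  (_ : 0 ≤ ε₀) (_ : CurvKN φ m ρ dl R C ε₀ χ) (G : D.FormM n X) (_ : IsKahler G)
  (p μ : ℕ) (K : Fin M → ℕ) (_ : ∀ i, (K i : ℝ) ≤ μ * dl i)
  (N₀ N₁ : D.FormM n X → X → ℝ) (_ : IsDecPair Dv r χ p μ K N₀ N₁) (x₀ : X) (_ : 0 < ρ x₀)
  (_ : 0 < N₀ χ x₀) (κ : ℝ) (_ : 0 < κ),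
  ∃ U τ w : X → ℝ, SmoothFn (n := n) U ∧ IsKahler (addH G U) ∧
    Continuous τ ∧ (∀ x, 0 ≤ τ x) ∧ SmoothFn (n := n) w ∧ (∀ x, 0 < w x) ∧
    (∀ N : D.FormM n X → X → ℝ, N = N₀ ∨ N = N₁ →
      BochF (addH G U) τ (fun x => N (addH G U) x * w x)) ∧
    J (addH G U) τ ≤ μ * (mixX G (clsK φ dl R) + ε₀ * mixX G χ) + κ

/-- **Row N2 (mass)**: `∫ w i∂∂̄ log (1 + N₁/N₀) ∧ G ^ (n - 1) ≤ μ (K_X + Δ) G ^ (n - 1)`. -/
def MassPartN : Prop := ∀ (n M : ℕ) (X : Type) [TopologicalSpace X] [T2Space X] [CompactSpace X]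
  [ConnectedSpace X] [ChartedSpace (Cm n) X] [IsManifold 𝓘(ℂ, Cm n) ω X]
  (χ : D.FormM n X) (_ : IsKahler χ) (φ : Chart n X → Cm n → ℝ) (_ : IsCanonicalMetric φ)
  (m : ℕ) (_ : 0 < m) (Dv : Fin M → Set X) (r : Fin M → X → ℝ) (R : Fin M → D.FormM n X)
  (_ : IsBd Dv r R) (dl : Fin M → ℝ) (_ : ∀ i, 0 ≤ dl i ∧ dl i ≤ 1) (_ : PsefK φ m dl R χ)
  (p μ : ℕ) (K : Fin M → ℕ) (_ : ∀ i, (K i : ℝ) ≤ μ * dl i)
  (N₀ N₁ : D.FormM n X → X → ℝ) (_ : IsDecPair Dv r χ p μ K N₀ N₁)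
  (_ : IsHolNorm (n := n) fun x => N₀ χ x + N₀ χ x)
  (u : X → ℝ) (_ : ∀ g x, IsKahler g → 0 < N₀ g x → 0 < N₁ g x →
    u x = Real.log (N₁ g x) - Real.log (N₀ g x)) (_ : ∃ x, 0 < N₀ χ x)
  (w : X → ℝ) (_ : Continuous w) (_ : ∀ x, w x ∈ Icc (0 : ℝ) 1) (_ : ∀ x ∈ tsupport w, 0 < N₀ χ x)
  (G : D.FormM n X) (_ : IsKahler G),
  J G (fun x => w x * lapX G (vN χ N₀ N₁) x) ≤ μ * mixX G (clsK φ dl R)

/-- **Row N3 (a)**: linear algebra. -/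
def LinPart : Prop := ∀ (n p d : ℕ) (_ : n = p + d) (b : Matrix (Fin p) (Fin n) ℂ)
  (G g : Matrix (Fin n) (Fin n) ℂ) (_ : G.PosDef) (_ : g.PosDef),
  gramD b G * G.det.re ≤ gramD b g * g.det.re * (g⁻¹ * G).trace.re ^ d

/-- **Row N3 (b)**: if the first `k` of the rows of `c b` are `a`, `c` invertible. -/
def HadPart : Prop := ∀ (n p : ℕ) (b : Matrix (Fin p) (Fin n) ℂ) (c : Matrix (Fin p) (Fin p) ℂ)
  (g : Matrix (Fin n) (Fin n) ℂ) (_ : g.PosDef),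
  ‖c.det‖ ^ 2 * gramD b g ≤ ∏ i, qf g ((c * b) i)

/-- **Row N4 (Khovanskii-Teissier by Yau)**: `Q` is the norm of a decomposable form, `l j` are the
Laplacians, `D` bounds their integrals for all the Kähler metrics in the class of `G`. -/
def KTPart : Prop := ∀ (n k p d : ℕ) (_ : n = p + d) (_ : k ≤ p) (X : Type) [TopologicalSpace X]
  [T2Space X] [CompactSpace X] [ConnectedSpace X] [ChartedSpace (Cm n) X]
  [IsManifold 𝓘(ℂ, Cm n) ω X] (χ : D.FormM n X) (_ : IsKahler χ) (Q : D.FormM n X → X → ℝ)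
  (_ : ∀ g, IsKahler g → SmoothFn (n := n) (Q g)) (_ : ∀ g x, IsKahler g → 0 ≤ Q g x)
  (l : Fin k → D.FormM n X → X → ℝ) (_ : ∀ j g, IsKahler g → Continuous (l j g))
  (_ : ∀ j g x, IsKahler g → 0 ≤ l j g x) (C₀ : ℝ) (_ : 0 ≤ C₀)
  (_ : ∀ G g x, IsKahler G → IsKahler g → Q G x * detR G g x ≤
    C₀ * (∏ j, l j g x) * trX g χ x ^ (p - k) * trX g G x ^ d),
  ∃ C₁ : ℝ, 0 ≤ C₁ ∧ ∀ (G : D.FormM n X) (_ : IsKahler G) (B : ℝ) (_ : 0 ≤ B)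
    (_ : ∀ (U : X → ℝ) (j : Fin k), SmoothFn (n := n) U → IsKahler (addH G U) →
      J (addH G U) (l j (addH G U)) ≤ B),
    J G (Q G) * J G (fun _ => 1) ^ p ≤
      C₁ * B ^ k * mixX G χ ^ (p - k) * J G (fun _ => 1)

/-- **Row N5 (Green)**: the integral of `b(y) dy ∧ dȳ ∧ A ^ d` depends only on the class of `A`. -/
def GreenPart : Prop := ∀ (n p : ℕ) (X : Type) [TopologicalSpace X] [T2Space X] [CompactSpace X]
  [ConnectedSpace X] [ChartedSpace (Cm n) X] [IsManifold 𝓘(ℂ, Cm n) ω X] (χ : D.FormM n X)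
  (_ : IsKahler χ) (O : Set X) (y : X → Cm p) (W : Set (Cm p)) (_ : IsTube (n := n) O y W)
  (b₀ : Cm p → ℝ) (_ : ContDiff ℝ ∞ b₀) (_ : HasCompactSupport b₀) (_ : tsupport b₀ ⊆ W)
  (A : D.FormM n X) (_ : IsClosedForm A) (_ : ∀ e x, At e x → (A e (e x)).IsHermitian)
  (U : X → ℝ) (_ : SmoothFn (n := n) U),
  intX (fun (e : Chart n X) z => tubeF O y b₀ (e.symm z) * bdet (rowsY y e z) (addH A U e z)) =
    intX (fun (e : Chart n X) z => tubeF O y b₀ (e.symm z) * bdet (rowsY y e z) (A e z))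

/-- **Row N6 (continuity of the fibre integrals)**. -/
def FibPartN : Prop := ∀ (n p d : ℕ) (_ : n = p + d) (X F : Type) [TopologicalSpace X] [T2Space X]
  [CompactSpace X] [ConnectedSpace X] [ChartedSpace (Cm n) X] [IsManifold 𝓘(ℂ, Cm n) ω X]
  [TopologicalSpace F] [T2Space F] [CompactSpace F] [ConnectedSpace F] [ChartedSpace (Cm d) F]
  [IsManifold 𝓘(ℂ, Cm d) ω F]
  (O : Set X) (y : X → Cm p) (W : Set (Cm p)) (_ : IsTube (n := n) O y W) (ι : F → X)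
  (_ : ContMDiff 𝓘(ℂ, Cm d) 𝓘(ℂ, Cm n) ω ι) (_ : Function.Injective ι)
  (_ : ∀ t, Function.Injective (mfderiv 𝓘(ℂ, Cm d) 𝓘(ℂ, Cm n) ι t)) (y₀ : Cm p) (_ : y₀ ∈ W)
  (_ : ∀ x, x ∈ range ι ↔ x ∈ O ∧ y x = y₀) (A : D.FormM n X) (_ : IsClosedForm A)
  (_ : ∀ e x, At e x → (A e (e x)).IsHermitian) (ε : ℝ) (_ : 0 < ε),
  ∃ V : Set (Cm p), IsOpen V ∧ y₀ ∈ V ∧ V ⊆ W ∧ ∀ b₀ : Cm p → ℝ, Continuous b₀ →
    HasCompactSupport b₀ → tsupport b₀ ⊆ V → (∀ q, 0 ≤ b₀ q) →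
    |intX (fun (e : Chart n X) z => tubeF O y b₀ (e.symm z) * bdet (rowsY y e z) (A e z)) -
      (∫ q, b₀ q) * intX (fun (e : Chart d F) z => (H368.MFS.pull ι A e z).det.re)| ≤
      ε * ∫ q, b₀ q

/-- **Row N7 (curvature and growth)**: a nef form `θ` and a volume form `W` with
`m (K_X + Δ) = m θ + N`, `N` contracted by `β`, `θ`. -/
def NefPart : Prop := ∀ (n : ℕ) (X : Type) [TopologicalSpace X] [T2Space X] [CompactSpace X]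
  [ConnectedSpace X] [ChartedSpace (Cm n) X] [IsManifold 𝓘(ℂ, Cm n) ω X]
  (χ : D.FormM n X) (_ : IsKahler χ) (Δ : Set X → ℝ) (_ : J.IsSNC (Cm n) Δ)
  (m : ℕ) (_ : 0 < m) (k : Set X → ℕ) (_ : ∀ D, (k D : ℝ) = m * Δ D)
  (θ β : D.FormM n X) (_ : IsNef χ θ) (_ : H368.MFS.IsSemiPos β)
  (W : X → ℝ)
  (_ : ∀ x, ∃ (r : ℕ) (g : Fin r → X → ℂ) (a : Fin r → ℕ),
    H368.MFS.VolLoc n m (fun (D : Set X) z g => J.IsLocalEq (Cm n) D g z) k W (fun _ _ => 0) θ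
      x g a ∧ ∀ᶠ z in 𝓝 x, ∀ i, g i z = 0 → H368.MFS.ConAt n (g i) β θ z),
  ∃ (M : ℕ) (Dv : Fin M → Set X) (r : Fin M → X → ℝ) (R : Fin M → D.FormM n X)
    (φ : Chart n X → Cm n → ℝ), Function.Injective Dv ∧ (∀ D, Δ D ≠ 0 ↔ ∃ i, Dv i = D) ∧
    IsBd Dv r R ∧ IsCanonicalMetric φ ∧ PsefK φ m (fun i => Δ (Dv i)) R χ ∧
    ∀ s : ℝ, mixX (addF β s θ) (clsK φ (fun i => Δ (Dv i)) R) = mixX (addF β s θ) θ

end Vale.Agent.P281.H342.NU
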