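import Vale.Agent.P281.H342.NU.Iface
import Vale.Agent.P281.H713.TL.Defs

/-! P281, theorem NU (numerical dimension, `K_X + Δ` nef), as a proposition. -/

open scoped Manifold ContDiff Topology ComplexOrder
open Set Filter MeasureTheory Vale.Agent.P281 Vale.Agent.P272.K Vale.Agent.P272.K.AMP
open Vale.Agent.P299
open Vale.Agent.P272.K.INT (IsClosedForm intX)

noncomputable section

namespace Vale.Agent.P281.H342.NU

open Vale.Agent.P281.H713 Vale.Agent.P281.H713.SA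
open Vale.Agent.P281.H167.GM (addF)
open Vale.Agent.P281.H368.MFS (IsSemiPos VolLoc ConAt pull)

/-- **Theorem NU**: `K_X + Δ` nef, with the numerical dimension. -/
def NumNef : Prop := ∀ (n p d : ℕ) (_ : n = p + d) (X Z Y F : Type)
  [TopologicalSpace X] [T2Space X] [CompactSpace X] [ConnectedSpace X]
  [ChartedSpace (Cm n) X] [IsManifold 𝓘(ℂ, Cm n) ω X]
  [TopologicalSpace Z] [ChartedSpace (Cm n) Z] [IsManifold 𝓘(ℂ, Cm n) ω Z]
  [TopologicalSpace Y] [T2Space Y] [ConnectedSpace Y]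
  [ChartedSpace (Cm p) Y] [IsManifold 𝓘(ℂ, Cm p) ω Y]
  [TopologicalSpace F] [T2Space F] [CompactSpace F] [ConnectedSpace F]
  [ChartedSpace (Cm d) F] [IsManifold 𝓘(ℂ, Cm d) ω F]
  (χ : D.FormM n X) (_ : IsKahler χ) (Δ : Set X → ℝ) (_ : J.IsSNC (Cm n) Δ)
  (m : ℕ) (_ : 0 < m) (k : Set X → ℕ) (_ : ∀ D, (k D : ℝ) = m * Δ D)
  (θ β : D.FormM n X) (_ : IsNef χ θ) (_ : IsSemiPos β) (W : X → ℝ)
  (_ : ∀ x, ∃ (r : ℕ) (g : Fin r → X → ℂ) (a : Fin r → ℕ),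
    VolLoc n m (fun (D : Set X) z g => J.IsLocalEq (Cm n) D g z) k W (fun _ _ => 0) θ x g a ∧
    ∀ᶠ z in 𝓝 x, ∀ i, g i z = 0 → ConAt n (g i) β θ z)
  (j : Z → X) (_ : J.IsBigOpen (Cm n) j) (f : Z → Y) (_ : ContMDiff 𝓘(ℂ, Cm n) 𝓘(ℂ, Cm p) ω f)
  (i : F → Z) (_ : IsSmoothFibre (Cm n) (Cm p) (Cm d) f i) (_ : Function.Injective i)
  (ν a : ℕ) (c C : ℝ) (_ : 0 < c)
  (_ : ∀ᶠ s : ℝ in atTop, c * s ^ ν ≤
    intX fun (e : Chart n X) z => (addF β s θ e z).det.re)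
  (_ : ∀ᶠ s : ℝ in atTop,
    (intX fun (e : Chart n X) z => (addF (addF β s θ) 1 χ e z).det.re) ≤ C * s ^ ν)
  (_ : ∀ᶠ s : ℝ in atTop, c * s ^ a ≤
    intX fun (e : Chart d F) z => (addF (pull (fun t => j (i t)) β) s
      (pull (fun t => j (i t)) θ) e z).det.re),
  ((a : ℕ∞) : WithBot ℕ∞) + TL.kodF (n := n) (p := p) Δ j f ≤ ((ν : ℕ∞) : WithBot ℕ∞)

end Vale.Agent.P281.H342.NU
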