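import Vale.Agent.P281.H342.NU.Fin0
import Vale.Agent.P281.H413.NU.Lap

/-! P281, theorem NU (numerical dimension, `K_X + Δ` nef): closed. -/

open scoped Manifold ContDiff Topology ComplexOrder

noncomputable section

namespace Vale.Agent.P281.H342.NU

open Vale.Agent.P281

/-- **Theorem NU** -/
theorem numNef : NumNef := numNef_lap H413.NU.lapPart

end Vale.Agent.P281.H342.NU
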