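import Mathlib

/-! P281, theorem NU: elementary facts on polynomials. -/

open Filter Topology Polynomial

noncomputable section

namespace Vale.Agent.P281.H342.NU

lemma ev_lead (P : ℝ[X]) : ∀ᶠ s : ℝ in atTop, ∃ t : ℝ, 1 / 2 ≤ t ∧ t ≤ 2 ∧
    P.eval s = t * (P.leadingCoeff * s ^ P.natDegree) := by
  obtain ⟨φ, hφ, he⟩ := (Polynomial.isEquivalent_atTop_lead P).exists_eq_mul
  filter_upwards [he, hφ.eventually (Icc_mem_nhds (by norm_num : (1 / 2 : ℝ) < 1)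
    (by norm_num : (1 : ℝ) < 2))] with s h1 h2
  exact ⟨φ s, h2.1, h2.2, h1⟩

/-- if `c s ^ a ≤ P s` for large `s`, then `P` has degree `≥ a` and a positive leading coefficient -/
lemma lead_of_growth {P : ℝ[X]} {c : ℝ} (hc : 0 < c) {a : ℕ}
    (h : ∀ᶠ s : ℝ in atTop, c * s ^ a ≤ P.eval s) : a ≤ P.natDegree ∧ 0 < P.leadingCoeff := by
  have hpos : 0 < P.leadingCoeff := by
    obtain ⟨s, ⟨t, h1, h2, h3⟩, h4, h5⟩ := ((ev_lead P).and (h.and (eventually_gt_atTop 0))).exists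
    have h6 : 0 < P.eval s := lt_of_lt_of_le (mul_pos hc (pow_pos h5 a)) h4
    rw [h3] at h6
    have h7 : 0 < P.leadingCoeff * s ^ P.natDegree :=
      pos_of_mul_pos_right h6 (by linarith)
    exact pos_of_mul_pos_left h7 (pow_pos h5 _).le
  refine ⟨?_, hpos⟩
  by_contra hlt
  have hlt : P.natDegree + 1 ≤ a := by omega
  have h8 : ∀ᶠ s : ℝ in atTop, 2 * P.leadingCoeff < c * s := by
    have := tendsto_id.const_mul_atTop hc
    exact this.eventually_gt_atTop _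
  obtain ⟨s, ⟨t, h1, h2, h3⟩, h4, h5, h6⟩ :=
    ((ev_lead P).and (h.and ((eventually_ge_atTop 1).and h8))).exists
  have h0 : (0 : ℝ) < s := lt_of_lt_of_le one_pos h5
  have h9 : c * s ^ (P.natDegree + 1) ≤ c * s ^ a :=
    mul_le_mul_of_nonneg_left (pow_le_pow_right₀ h5 hlt) hc.le
  have h10 : P.eval s ≤ 2 * (P.leadingCoeff * s ^ P.natDegree) := by
    rw [h3]
    exact mul_le_mul_of_nonneg_right h2 (by positivity)
  have h11 : c * s ^ (P.natDegree + 1) = (c * s) * s ^ P.natDegree := by ring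
  have h12 : 2 * P.leadingCoeff * s ^ P.natDegree < (c * s) * s ^ P.natDegree :=
    mul_lt_mul_of_pos_right h6 (pow_pos h0 _)
  have h13 : 2 * (P.leadingCoeff * s ^ P.natDegree) = 2 * P.leadingCoeff * s ^ P.natDegree := by
    ring
  linarith

/-- **the perturbation lemma** -/
theorem growth_of_close {P : ℝ[X]} {N : ℕ} (hN : P.natDegree ≤ N) {c : ℝ} (hc : 0 < c) {a : ℕ}
    (h : ∀ᶠ s : ℝ in atTop, c * s ^ a ≤ P.eval s) :
    ∃ ε : ℝ, 0 < ε ∧ ∀ Q : ℝ[X], Q.natDegree ≤ N →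
      (∀ i : ℕ, i ≤ N → |Q.eval (i : ℝ) - P.eval (i : ℝ)| ≤ ε) →
      (∀ s : ℝ, 1 ≤ s → 0 ≤ Q.eval s) →
      ∃ c' : ℝ, 0 < c' ∧ ∀ᶠ s : ℝ in atTop, c' * s ^ a ≤ Q.eval s := by
  obtain ⟨ha, hl⟩ := lead_of_growth hc h
  set L : ℕ → ℝ := fun i => (Lagrange.basis (Finset.range (N + 1)) (fun i : ℕ => (i : ℝ)) i).coeff
    P.natDegree with hL
  have hcoef : ∀ Q : ℝ[X], Q.natDegree ≤ N → Q.coeff P.natDegree =
      ∑ i ∈ Finset.range (N + 1), Q.eval (i : ℝ) * L i := by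
    intro Q hQ
    have h1 := Lagrange.eq_interpolate (s := Finset.range (N + 1)) (v := fun i : ℕ => (i : ℝ))
      (f := Q) (fun i _ j _ hij => by simpa using hij) (by
        rw [Finset.card_range]
        exact lt_of_le_of_lt Polynomial.degree_le_natDegree (by exact_mod_cast Nat.lt_succ_of_le hQ))
    rw [Lagrange.interpolate_apply] at h1
    conv_lhs => rw [h1]
    rw [Polynomial.finsetSum_coeff]
    refine Finset.sum_congr rfl fun i _ => ?_
    rw [Polynomial.coeff_C_mul]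
  set S : ℝ := ∑ i ∈ Finset.range (N + 1), |L i| with hS
  have hS0 : 0 ≤ S := Finset.sum_nonneg fun i _ => abs_nonneg _
  refine ⟨P.leadingCoeff / (2 * (S + 1)), by positivity, fun Q hQ hclose hQ0 => ?_⟩
  have h1 : |Q.coeff P.natDegree - P.coeff P.natDegree| ≤
      P.leadingCoeff / (2 * (S + 1)) * S := by
    rw [hcoef Q hQ, hcoef P hN, ← Finset.sum_sub_distrib, hS, Finset.mul_sum]
    refine (Finset.abs_sum_le_sum_abs _ _).trans (Finset.sum_le_sum fun i hi => ?_)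
    rw [← sub_mul, abs_mul]
    exact mul_le_mul_of_nonneg_right (hclose i (Nat.lt_succ_iff.1 (Finset.mem_range.1 hi)))
      (abs_nonneg _)
  have h2 : P.leadingCoeff / (2 * (S + 1)) * S < P.leadingCoeff := by
    rw [div_mul_eq_mul_div, div_lt_iff₀ (by positivity)]
    nlinarith
  have h3 : 0 < Q.coeff P.natDegree := by
    have h4 := (abs_le.1 h1).1
    have h5 : P.coeff P.natDegree = P.leadingCoeff := rfl
    linarith
  have h4 : P.natDegree ≤ Q.natDegree := Polynomial.le_natDegree_of_ne_zero h3.ne'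
  have hQne : Q ≠ 0 := fun h0 => by simp [h0] at h3
  have h5 : 0 < Q.leadingCoeff := by
    have h6 : Q.leadingCoeff ≠ 0 := Polynomial.leadingCoeff_ne_zero.2 hQne
    obtain ⟨s, ⟨t, k1, k2, k3⟩, k4⟩ := ((ev_lead Q).and (eventually_ge_atTop 1)).exists
    have k5 : (0 : ℝ) < s := lt_of_lt_of_le one_pos k4
    have k6 := hQ0 s k4
    rw [k3] at k6
    by_contra hneg
    have hneg : Q.leadingCoeff < 0 := lt_of_le_of_ne (not_lt.1 hneg) h6
    have k7 : t * (Q.leadingCoeff * s ^ Q.natDegree) < 0 :=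
      mul_neg_of_pos_of_neg (by linarith) (mul_neg_of_neg_of_pos hneg (pow_pos k5 _))
    linarith
  refine ⟨Q.leadingCoeff / 2, by positivity, ?_⟩
  filter_upwards [ev_lead Q, eventually_ge_atTop 1] with s ⟨t, k1, k2, k3⟩ k4
  rw [k3]
  have k5 : (0 : ℝ) ≤ Q.leadingCoeff * s ^ Q.natDegree := by positivity
  calc Q.leadingCoeff / 2 * s ^ a ≤ Q.leadingCoeff / 2 * s ^ Q.natDegree :=
        mul_le_mul_of_nonneg_left (pow_le_pow_right₀ k4 (ha.trans h4)) (by positivity)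
    _ = 1 / 2 * (Q.leadingCoeff * s ^ Q.natDegree) := by ring
    _ ≤ t * (Q.leadingCoeff * s ^ Q.natDegree) := mul_le_mul_of_nonneg_right k1 k5

/-- the final inequality of exponents -/
theorem exp_le {n d k e a ν : ℕ} (hn : n = d + k + e) (hn0 : 0 < n) {M V Y Z : ℝ → ℝ}
    {c₁ c₂ C₁ C₂ C₃ K : ℝ} (hc₁ : 0 < c₁) (hc₂ : 0 < c₂) (hK : 0 ≤ K)
    (hM : ∀ᶠ s : ℝ in atTop, c₁ * s ^ a ≤ M s) (hV : ∀ᶠ s : ℝ in atTop, c₂ * s ^ ν ≤ V s)
    (hV' : ∀ᶠ s : ℝ in atTop, V s ≤ C₁ * s ^ ν) (hY : ∀ᶠ s : ℝ in atTop, 0 ≤ Y s)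
    (hY' : ∀ᶠ s : ℝ in atTop, s * Y s ≤ C₂ * V s) (hZ : ∀ᶠ s : ℝ in atTop, 0 ≤ Z s)
    (hZ' : ∀ᶠ s : ℝ in atTop, Z s ≤ C₃ * s ^ ν)
    (hkt : ∀ᶠ s : ℝ in atTop, M s * V s ^ (n - 1) ≤ K * ((n * V s) ^ d * Y s ^ k * Z s ^ e)) :
    a + k ≤ ν := by
  have hC₁ : 0 < C₁ := by
    obtain ⟨s, h1, h2, h3⟩ := (hV.and (hV'.and (eventually_ge_atTop 1))).exists
    have h4 : (0 : ℝ) < s ^ ν := pow_pos (lt_of_lt_of_le one_pos h3) _
    have h5 := h1.trans h2
    exact hc₂.trans_le (le_of_mul_le_mul_right h5 h4)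
  set D₂ : ℝ := max C₂ 0 * C₁ with hD₂
  set D₃ : ℝ := max C₃ 0 with hD₃
  have hD₂0 : 0 ≤ D₂ := mul_nonneg (le_max_right _ _) hC₁.le
  have hD₃0 : 0 ≤ D₃ := le_max_right _ _
  set C : ℝ := K * ((n * C₁) ^ d * D₂ ^ k * D₃ ^ e) with hC
  by_contra hlt
  have hlt : ν + 1 ≤ a + k := by omega
  have hkey : ∀ᶠ s : ℝ in atTop, c₁ * c₂ ^ (n - 1) * s ≤ C := by
    filter_upwards [hM, eventually_ge_atTop 1, hV, hV', hY, hY', hZ, hZ', hkt] with
      s h1 h2 gV gV' gY gY' gZ gZ' gkt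
    have hs : (0 : ℝ) < s := lt_of_lt_of_le one_pos h2
    have hV0 : 0 < V s := lt_of_lt_of_le (by positivity) gV
    have h3 : c₁ * s ^ a * (c₂ * s ^ ν) ^ (n - 1) ≤ M s * V s ^ (n - 1) := by
      have h4 : (c₂ * s ^ ν) ^ (n - 1) ≤ V s ^ (n - 1) :=
        pow_le_pow_left₀ (by positivity) gV _
      exact mul_le_mul h1 h4 (by positivity) ((by positivity : (0 : ℝ) ≤ c₁ * s ^ a).trans h1)
    have h5 : s * Y s ≤ D₂ * s ^ ν := by
      refine gY'.trans ?_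
      calc C₂ * V s ≤ max C₂ 0 * V s := mul_le_mul_of_nonneg_right (le_max_left _ _) hV0.le
        _ ≤ max C₂ 0 * (C₁ * s ^ ν) := mul_le_mul_of_nonneg_left gV' (le_max_right _ _)
        _ = D₂ * s ^ ν := by rw [hD₂]; ring
    have h6 : Z s ≤ D₃ * s ^ ν :=
      gZ'.trans (mul_le_mul_of_nonneg_right (le_max_left _ _) (by positivity))
    have h7 : (n * V s) ^ d * (s * Y s) ^ k * Z s ^ e ≤
        (n * C₁ * s ^ ν) ^ d * (D₂ * s ^ ν) ^ k * (D₃ * s ^ ν) ^ e := by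
      have k1 : (n * V s) ^ d ≤ (n * C₁ * s ^ ν) ^ d := by
        refine pow_le_pow_left₀ (by positivity) ?_ _
        rw [mul_assoc]
        exact mul_le_mul_of_nonneg_left gV' (Nat.cast_nonneg _)
      have k2 : (s * Y s) ^ k ≤ (D₂ * s ^ ν) ^ k :=
        pow_le_pow_left₀ (mul_nonneg hs.le gY) h5 _
      have k3 : Z s ^ e ≤ (D₃ * s ^ ν) ^ e := pow_le_pow_left₀ gZ h6 _
      have k4 : 0 ≤ (s * Y s) ^ k := pow_nonneg (mul_nonneg hs.le gY) _
      exact mul_le_mul (mul_le_mul k1 k2 k4 (by positivity)) k3 (pow_nonneg gZ _)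
        (by positivity)
    have h8 : s ^ k * (c₁ * s ^ a * (c₂ * s ^ ν) ^ (n - 1)) ≤ C * s ^ (ν * n) := by
      calc s ^ k * (c₁ * s ^ a * (c₂ * s ^ ν) ^ (n - 1)) ≤
            s ^ k * (K * ((n * V s) ^ d * Y s ^ k * Z s ^ e)) :=
            mul_le_mul_of_nonneg_left (h3.trans gkt) (by positivity)
        _ = K * ((n * V s) ^ d * (s * Y s) ^ k * Z s ^ e) := by rw [mul_pow s]; ring
        _ ≤ K * ((n * C₁ * s ^ ν) ^ d * (D₂ * s ^ ν) ^ k * (D₃ * s ^ ν) ^ e) :=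
            mul_le_mul_of_nonneg_left h7 hK
        _ = C * s ^ (ν * n) := by
            have : s ^ (ν * n) = (s ^ ν) ^ d * (s ^ ν) ^ k * (s ^ ν) ^ e := by
              rw [← pow_add, ← pow_add, ← pow_mul, hn]
            rw [this, hC]
            ring
    have h9 : s ^ k * (c₁ * s ^ a * (c₂ * s ^ ν) ^ (n - 1)) =
        c₁ * c₂ ^ (n - 1) * s ^ (k + a + ν * (n - 1)) := by
      rw [mul_pow, ← pow_mul, pow_add, pow_add]
      ring
    have h10 : s ^ (ν * n + 1) ≤ s ^ (k + a + ν * (n - 1)) := by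
      refine pow_le_pow_right₀ h2 ?_
      obtain ⟨q, rfl⟩ : ∃ q, n = q + 1 := ⟨n - 1, by omega⟩
      rw [Nat.add_sub_cancel, Nat.mul_succ]
      omega
    have h11 : c₁ * c₂ ^ (n - 1) * s * s ^ (ν * n) ≤ C * s ^ (ν * n) := by
      calc c₁ * c₂ ^ (n - 1) * s * s ^ (ν * n) = c₁ * c₂ ^ (n - 1) * s ^ (ν * n + 1) := by
            rw [pow_succ]; ring
        _ ≤ c₁ * c₂ ^ (n - 1) * s ^ (k + a + ν * (n - 1)) :=
            mul_le_mul_of_nonneg_left h10 (by positivity)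
        _ ≤ _ := by rw [← h9]; exact h8
    exact le_of_mul_le_mul_right h11 (pow_pos hs _)
  have h12 : ∀ᶠ s : ℝ in atTop, C < c₁ * c₂ ^ (n - 1) * s :=
    (tendsto_id.const_mul_atTop (by positivity)).eventually_gt_atTop _
  obtain ⟨s, k1, k2⟩ := (hkey.and h12).exists
  linarith

end Vale.Agent.P281.H342.NU
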