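import Vale.Agent.P281.H342.NU.Iface
import Vale.Agent.P281.H342.NU.Poly
import Vale.Agent.P281.H716.NU.KT
import Vale.Agent.P281.H342.U.Core
import Vale.Agent.P299.H167.ElMir
import Vale.Agent.P281.H283.KD.MkA

/-! P281, theorem NU: classes. -/

open scoped Manifold ContDiff Topology ComplexOrder
open Set Filter MeasureTheory Vale.Agent.P281 Vale.Agent.P272.K Vale.Agent.P272.K.AMP
open Vale.Agent.P299
open Vale.Agent.P299.H882 (J)
open Vale.Agent.P272.K.INT (IsClosedForm intX)

set_option linter.unusedSectionVars false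

noncomputable section

namespace Vale.Agent.P281.H342.NU

open Vale.Agent.P281.H713 Vale.Agent.P281.H713.SA Vale.Agent.P281.H713.KD Vale.Agent.P281.H716
open Vale.Agent.P281.H167.GM (mixX mixD addF phiD)
open Vale.Agent.P281.H227.GMC (isClosed_addF vol_interp epsPart cohPart isClosed_addH lb)
open Vale.Agent.P281.H716.KL (mixX_comb)
open Vale.Agent.P281.H342.U (mixX_nn)

variable {n : ℕ} {X : Type} [TopologicalSpace X] [T2Space X] [CompactSpace X]
  [ConnectedSpace X] [ChartedSpace (Cm n) X] [IsManifold 𝓘(ℂ, Cm n) ω X]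
  {χ θ β : D.FormM n X}

/-- the volume -/
def vol (A : D.FormM n X) : ℝ := intX fun (e : Chart n X) z => (A e z).det.re

/-- **Kähler approximations** -/
theorem exists_kahler (hχ : IsKahler χ) (hβ : IsClosedForm β)
    (hβ0 : ∀ e x, At e x → (β e (e x)).PosSemidef) (hθ : IsNef χ θ) {s ε : ℝ} (hs : 0 ≤ s)
    (hε : 0 < ε) :
    ∃ U : X → ℝ, SmoothFn (n := n) U ∧ IsKahler (addH (addF (addF β s θ) ε χ) U) := by
  obtain ⟨hθc, hθh, hθn⟩ := hθ
  set ε' : ℝ := ε / (2 * (s + 1)) with hε'
  have hε'0 : 0 < ε' := by positivity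
  obtain ⟨ψ, hψ, hp⟩ := hθn ε' hε'0
  have hU : SmoothFn (n := n) (fun x => s * ψ x) := fun e x h => contDiffAt_const.mul (hψ e x h)
  have hχc := INT.IsKahler.isClosedForm hχ
  refine ⟨_, hU, H167.isKahler_of (isClosed_addH (isClosed_addF (isClosed_addF hβ hθc s) hχc ε) hU)
    fun e x he => ?_⟩
  have h1 : hess (fun x => s * ψ x) e (e x) = (s : ℂ) • hess ψ e (e x) :=
    H167.hess_smul_fn s hψ he
  have h2 : 0 < ε - s * ε' := by
    have : s * ε' < ε := by
      rw [hε', mul_div_assoc', div_lt_iff₀ (by positivity)]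
      nlinarith
    linarith
  have h3 : addH (addF (addF β s θ) ε χ) (fun x => s * ψ x) e (e x) =
      ((ε - s * ε' : ℝ) : ℂ) • χ e (e x) + (β e (e x) + (s : ℂ) •
        (θ e (e x) + hess ψ e (e x) + (ε' : ℂ) • χ e (e x))) := by
    show (β e (e x) + (s : ℂ) • θ e (e x)) + (ε : ℂ) • χ e (e x) +
      hess (fun x => s * ψ x) e (e x) = _
    rw [h1]
    push_cast
    module
  rw [h3]
  exact ((hχ.posDef e x he).smul (by exact_mod_cast h2)).add_posSemidef
    ((hβ0 e x he).add ((hp e x he).smul (by exact_mod_cast hs)))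

lemma vol_addH {A : D.FormM n X} (hA : IsClosedForm A) {U : X → ℝ} (hU : SmoothFn (n := n) U) :
    vol (addH A U) = vol A := INT.intX_det_add_cHess hA hU

lemma mixX_addH {A B : D.FormM n X} (hA : IsClosedForm A) (hB : IsClosedForm B) {U : X → ℝ}
    (hU : SmoothFn (n := n) U) : mixX (addH A U) B = mixX A B := by
  have h := cohPart n X A B hA hB U (fun _ => 0) hU (fun e x h => contDiffAt_const)
  rwa [show addH B (fun _ => (0 : ℝ)) = B from H776.KL.addH_zero B] at h

lemma tendsto_vol {A C : D.FormM n X} (hA : IsClosedForm A) (hC : IsClosedForm C) :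
    Tendsto (fun ε : ℝ => vol (addF A ε C)) (𝓝[>] 0) (𝓝 (vol A)) := by
  have h0 : vol A = vol (addF A 0 C) := INT.intX_congr fun e x hx => by simp [addF]
  rw [h0]
  have h2 : Continuous fun ε : ℝ => vol (addF A ε C) := by
    have h1 : ∀ ε : ℝ, vol (addF A ε C) = ∑ i ∈ Finset.range (n + 1), (lb n i).eval ε *
        intX (fun (e : Chart n X) z => (addF A (H227.GMC.nd i) C e z).det.re) := fun ε =>
      vol_interp hA hC ε
    simp only [h1]
    exact continuous_finsetSum _ fun j _ => ((lb n j).continuous).mul continuous_const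
  exact (h2.tendsto 0).mono_left nhdsWithin_le_nhds

lemma mixX_self (A : D.FormM n X) : mixX A A = n * vol A := by
  have h1 : mixX A A = intX fun (e : Chart n X) z => (n : ℝ) * (A e z).det.re := by
    refine INT.intX_congr fun e x hx => ?_
    show ((A e (e x)).adjugate * A e (e x)).trace.re = _
    rw [Matrix.adjugate_mul, Matrix.trace_smul, Matrix.trace_one, Fintype.card_fin, smul_eq_mul,
      mul_comm, ← Complex.ofReal_natCast, Complex.re_ofReal_mul]
  rw [h1, INT.intX_const_mul]
  rfl

section nef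

variable (hχ : IsKahler χ) (hβ : IsClosedForm β)
  (hβ0 : ∀ e x, At e x → (β e (e x)).PosSemidef) (hθ : IsNef χ θ) {s : ℝ} (hs : 0 ≤ s)

include hχ hβ hβ0 hθ hs

/-- the mixed numbers of `β + s θ` and semipositive closed forms -/
lemma mix_nn {B : D.FormM n X} (hB : IsClosedForm B)
    (hB0 : ∀ e x, At e x → (B e (e x)).PosSemidef) : 0 ≤ mixX (addF β s θ) B := by
  have hχc := INT.IsKahler.isClosedForm hχ
  have hA := isClosed_addF hβ hθ.1 s
  refine ge_of_tendsto (epsPart n X (addF β s θ) B χ hA hB hχc) ?_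
  filter_upwards [self_mem_nhdsWithin] with ε hε
  obtain ⟨U, hU, hg⟩ := exists_kahler hχ hβ hβ0 hθ hs (show (0 : ℝ) < ε from hε)
  rw [← mixX_addH (isClosed_addF hA hχc ε) hB hU]
  exact mixX_nn (fun e x he => (hg.posDef e x he).posSemidef) hB0

/-- `s ∫ A ^ (n-1) θ ≤ ∫ A ^ n`, `A = β + s θ` -/
lemma mix_theta : s * mixX (addF β s θ) θ ≤ n * vol (addF β s θ) := by
  have hA := isClosed_addF hβ hθ.1 s
  rw [← mixX_self, mixX_comb (B'' := addF β s θ) (a := 1) (a' := s) hA hβ hθ.1 fun e x he => by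
    show β e (e x) + (s : ℂ) • θ e (e x) = _
    rw [Complex.ofReal_one, one_smul]]
  have := mix_nn hχ hβ hβ0 hθ hs hβ hβ0
  linarith

/-- `∫ A ^ (n - 1) χ ≤ ∫ (A + χ) ^ n` and `∫ A ^ n ≤ ∫ (A + χ) ^ n`, `A = β + s θ` -/
lemma mix_chi : mixX (addF β s θ) χ ≤ vol (addF (addF β s θ) 1 χ) ∧
    vol (addF β s θ) ≤ vol (addF (addF β s θ) 1 χ) := by
  have hχc := INT.IsKahler.isClosedForm hχ
  have hA := isClosed_addF hβ hθ.1 s
  have hA1 := isClosed_addF hA hχc 1
  have h1 := tendsto_vol hA1 hχc
  have key : ∀ ε : ℝ, 0 < ε → mixX (addF (addF β s θ) ε χ) χ ≤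
        vol (addF (addF (addF β s θ) 1 χ) ε χ) ∧
      vol (addF (addF β s θ) ε χ) ≤ vol (addF (addF (addF β s θ) 1 χ) ε χ) := by
    intro ε hε
    obtain ⟨U, hU, hg⟩ := exists_kahler hχ hβ hβ0 hθ hs hε
    have hAε := isClosed_addF hA hχc ε
    have hA2 := isClosed_addF hAε hχc 1
    have h2 : vol (addF (addF (addF β s θ) 1 χ) ε χ) =
        intX fun (e : Chart n X) z => (addH (addF (addF β s θ) ε χ) U e z + χ e z).det.re := by
      have h3 : vol (addF (addF (addF β s θ) 1 χ) ε χ) =
          vol (addF (addF (addF β s θ) ε χ) 1 χ) := by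
        refine INT.intX_congr fun e x he => ?_
        congr 2
        simp only [addF]
        abel
      rw [h3, ← vol_addH hA2 hU]
      refine INT.intX_congr fun e x he => ?_
      congr 2
      show _ + ((1 : ℝ) : ℂ) • χ e (e x) + _ = _ + _ + χ e (e x)
      rw [Complex.ofReal_one, one_smul]
      abel
    have hgc := isClosed_addH hAε hU
    have hgχ : IsClosedForm (addF (addH (addF (addF β s θ) ε χ) U) 1 χ) := isClosed_addF hgc hχc 1
    have hd : INT.IsDensity fun (e : Chart n X) z =>
        (addH (addF (addF β s θ) ε χ) U e z + χ e z).det.re := by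
      have h4 := hgχ.isDensity
      have h5 : (fun (e : Chart n X) z => (addH (addF (addF β s θ) ε χ) U e z + χ e z).det.re) =
          fun (e : Chart n X) z => (addF (addH (addF (addF β s θ) ε χ) U) 1 χ e z).det.re := by
        funext e z
        show _ = (_ + ((1 : ℝ) : ℂ) • χ e z).det.re
        rw [Complex.ofReal_one, one_smul]
      rw [h5]
      exact h4
    rw [h2]
    constructor
    · rw [← mixX_addH hAε hχc hU]
      refine INT.intX_mono (H787.isDensity_mixD hgc.form hχc.form hgc.smooth hχc.smooth) hd fun e x he => ?_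
      exact H368.GM.mixD_le_det (hg.posDef e x he).posSemidef (hχ.posDef e x he).posSemidef
    · rw [← vol_addH hAε hU]
      refine INT.intX_mono hgc.isDensity hd fun e x he => ?_
      have h6 : 0 ≤ ((addH (addF (addF β s θ) ε χ) U e (e x))⁻¹ * χ e (e x)).trace.re :=
        (Complex.le_def.1 (C2.trace_mul_nonneg (hg.posDef e x he).inv.posSemidef
          (hχ.posDef e x he).posSemidef)).1
      have h7 : 0 < (addH (addF (addF β s θ) ε χ) U e (e x)).det.re :=
        (Complex.lt_def.1 (hg.posDef e x he).det_pos).1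
      have h8 := Vale.Agent.P281.H283.KD.det_add_ge (hg.posDef e x he) (hχ.posDef e x he).posSemidef
      have h9 := mul_nonneg h7.le h6
      linarith
  constructor
  · refine le_of_tendsto_of_tendsto (epsPart n X (addF β s θ) χ χ hA hχc hχc) h1 ?_
    filter_upwards [self_mem_nhdsWithin] with ε hε
    exact (key ε hε).1
  · refine le_of_tendsto_of_tendsto (tendsto_vol hA hχc) h1 ?_
    filter_upwards [self_mem_nhdsWithin] with ε hε
    exact (key ε hε).2

end nef

end Vale.Agent.P281.H342.NU
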