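import Vale.Agent.P281.H342.NU.Main

/-! P281, theorem NU (numerical dimension, `K_X + Δ` nef): with the Kodaira dimension of the fibre. -/

open scoped Manifold ContDiff Topology ComplexOrder
open Set Filter MeasureTheory Vale.Agent.P281 Vale.Agent.P272.K Vale.Agent.P272.K.AMP
open Vale.Agent.P299
open Vale.Agent.P272.K.INT (IsClosedForm intX)

noncomputable section

namespace Vale.Agent.P281.H342.NU

open Vale.Agent.P281.H713 Vale.Agent.P281.H713.SA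
open Vale.Agent.P281.H167.GM (addF)
open Vale.Agent.P281.H368.MFS (IsSemiPos VolLoc ConAt pull)

/-- the condition in `J.kod` -/
def KodAt {ι : Type} {d : ℕ} {F : Type} [TopologicalSpace F] [ChartedSpace (Cm d) F]
    (eqn : ι → F → (F → ℂ) → Prop) (c : ι → ℝ) (j : ℕ) : Prop :=
  ∃ (m : ℕ) (k : ι → ℕ) (s : ℕ → F → ℂ) (z : F), 0 < m ∧
    (∀ i, k i = m * c i) ∧ (∀ b, J.IsSection (Cm d) eqn m k (s b)) ∧
    (∀ i, k i ≠ 0 → ∃ g, eqn i z g ∧ g z ≠ 0) ∧ s 0 z ≠ 0 ∧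
    Function.Surjective fun (ξ : Cm d) (b : Fin j) =>
      J.dif (Cm d) (fun w => s (b + 1) w / s 0 w) z ξ

/-- **Row N9 (growth on the fibre)**: `κ` independent quotients of sections of `m₁ (K_F + Δ|_F)`
give `∫_F (β + s θ) ^ d ≥ c s ^ κ`. -/
def FibGrow : Prop := ∀ (n d : ℕ) (X F : Type)
  [TopologicalSpace X] [T2Space X] [CompactSpace X] [ConnectedSpace X]
  [ChartedSpace (Cm n) X] [IsManifold 𝓘(ℂ, Cm n) ω X]
  [TopologicalSpace F] [T2Space F] [CompactSpace F] [ConnectedSpace F]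
  [ChartedSpace (Cm d) F] [IsManifold 𝓘(ℂ, Cm d) ω F]
  (χ : D.FormM n X) (_ : IsKahler χ) (Δ : Set X → ℝ) (_ : J.IsSNC (Cm n) Δ)
  (m : ℕ) (_ : 0 < m) (k : Set X → ℕ) (_ : ∀ D, (k D : ℝ) = m * Δ D)
  (θ β : D.FormM n X) (_ : IsNef χ θ) (_ : IsSemiPos β) (W : X → ℝ)
  (ι : F → X) (_ : ContMDiff 𝓘(ℂ, Cm d) 𝓘(ℂ, Cm n) ω ι)
  (_ : ∀ t, Function.Injective (mfderiv 𝓘(ℂ, Cm d) 𝓘(ℂ, Cm n) ι t))
  (_ : ∀ D, Δ D ≠ 0 → ∃ t, ι t ∉ D)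
  (_ : Dense {t | ((pull ι β : D.FormM d F) (chartAt (Cm d) t) (chartAt (Cm d) t t)).PosDef})
  (_ : ∀ t : F, ∃ (r : ℕ) (g : Fin r → X → ℂ) (a : Fin r → ℕ),
    VolLoc n m (fun (D : Set X) z g => J.IsLocalEq (Cm n) D g z) k W (fun _ _ => 0) θ (ι t) g a ∧
    (∀ l, J.dif (Cm d) (fun t => g l (ι t)) t ≠ 0) ∧
    ∀ᶠ s in 𝓝 t, ∀ l, g l (ι s) = 0 →
      ConAt d (fun t => g l (ι t)) (pull ι β) (pull ι θ) s)
  (κ : ℕ) (_ : KodAt (d := d) (fun (D : Set X) (t : F) g => ∃ e, J.IsLocalEq (Cm n) D e (ι t) ∧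
    ∀ᶠ t' in 𝓝 t, g t' = e (ι t')) Δ κ),
  ∃ c : ℝ, 0 < c ∧ ∀ᶠ s : ℝ in atTop, c * s ^ κ ≤
    intX fun (e : Chart d F) z => (addF (pull ι β) s (pull ι θ) e z).det.re

/-- **Theorem NU**, second form: `κ(F, K_F + Δ|_F) + κ(f | Δ) ≤ ν`. -/
def NumNefF : Prop := ∀ (n p d : ℕ) (_ : n = p + d) (X Z Y F : Type)
  [TopologicalSpace X] [T2Space X] [CompactSpace X] [ConnectedSpace X]
  [ChartedSpace (Cm n) X] [IsManifold 𝓘(ℂ, Cm n) ω X]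
  [TopologicalSpace Z] [ChartedSpace (Cm n) Z] [IsManifold 𝓘(ℂ, Cm n) ω Z]
  [TopologicalSpace Y] [T2Space Y] [ConnectedSpace Y]
  [ChartedSpace (Cm p) Y] [IsManifold 𝓘(ℂ, Cm p) ω Y]
  [TopologicalSpace F] [T2Space F] [CompactSpace F] [ConnectedSpace F]
  [ChartedSpace (Cm d) F] [IsManifold 𝓘(ℂ, Cm d) ω F]
  (χ : D.FormM n X) (_ : IsKahler χ) (Δ : Set X → ℝ) (_ : J.IsSNC (Cm n) Δ)
  (m : ℕ) (_ : 0 < m) (k : Set X → ℕ) (_ : ∀ D, (k D : ℝ) = m * Δ D)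
  (θ β : D.FormM n X) (_ : IsNef χ θ) (_ : IsSemiPos β) (W : X → ℝ)
  (_ : ∀ x, ∃ (r : ℕ) (g : Fin r → X → ℂ) (a : Fin r → ℕ),
    VolLoc n m (fun (D : Set X) z g => J.IsLocalEq (Cm n) D g z) k W (fun _ _ => 0) θ x g a ∧
    ∀ᶠ z in 𝓝 x, ∀ i, g i z = 0 → ConAt n (g i) β θ z)
  (j : Z → X) (_ : J.IsBigOpen (Cm n) j) (f : Z → Y) (_ : ContMDiff 𝓘(ℂ, Cm n) 𝓘(ℂ, Cm p) ω f)
  (i : F → Z) (_ : IsSmoothFibre (Cm n) (Cm p) (Cm d) f i) (_ : Function.Injective i)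
  (ν : ℕ) (c C : ℝ) (_ : 0 < c)
  (_ : ∀ᶠ s : ℝ in atTop, c * s ^ ν ≤
    intX fun (e : Chart n X) z => (addF β s θ e z).det.re)
  (_ : ∀ᶠ s : ℝ in atTop,
    (intX fun (e : Chart n X) z => (addF (addF β s θ) 1 χ e z).det.re) ≤ C * s ^ ν)
  (_ : ∀ D, Δ D ≠ 0 → ∃ t, j (i t) ∉ D)
  (_ : Dense {t | ((pull (fun t => j (i t)) β : D.FormM d F) (chartAt (Cm d) t)
    (chartAt (Cm d) t t)).PosDef})
  (_ : ∀ t : F, ∃ (r : ℕ) (g : Fin r → X → ℂ) (a : Fin r → ℕ),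
    VolLoc n m (fun (D : Set X) z g => J.IsLocalEq (Cm n) D g z) k W (fun _ _ => 0) θ (j (i t))
      g a ∧
    (∀ l, J.dif (Cm d) (fun t => g l (j (i t))) t ≠ 0) ∧
    ∀ᶠ s in 𝓝 t, ∀ l, g l (j (i s)) = 0 →
      ConAt d (fun t => g l (j (i t))) (pull (fun t => j (i t)) β) (pull (fun t => j (i t)) θ) s),
  J.kod (Cm d) (fun (D : Set X) t g => ∃ e, J.IsLocalEq (Cm n) D e (j (i t)) ∧
    ∀ᶠ t' in 𝓝 t, g t' = e (j (i t'))) Δ + TL.kodF (n := n) (p := p) Δ j f ≤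
      ((ν : ℕ∞) : WithBot ℕ∞)

lemma iSup_add_le {Q : ℕ → Prop} {x : WithBot ℕ∞} {ν B : ℕ} (hB : ∀ l, Q l → l ≤ B)
    (h : ∀ l, Q l → ((l : ℕ∞) : WithBot ℕ∞) + x ≤ ((ν : ℕ∞) : WithBot ℕ∞)) :
    (⨆ (l : ℕ) (_ : Q l), ((l : ℕ∞) : WithBot ℕ∞)) + x ≤ ((ν : ℕ∞) : WithBot ℕ∞) := by
  classical
  by_cases hne : ∃ l, Q l
  · obtain ⟨l, hl⟩ := hne
    have h1 : Q (Nat.findGreatest Q B) := Nat.findGreatest_spec (hB l hl) hl
    have h2 : (⨆ (l : ℕ) (_ : Q l), ((l : ℕ∞) : WithBot ℕ∞)) =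
        (((Nat.findGreatest Q B : ℕ) : ℕ∞) : WithBot ℕ∞) := by
      refine le_antisymm (iSup₂_le fun l hl => ?_) (le_iSup₂_of_le _ h1 le_rfl)
      exact_mod_cast Nat.le_findGreatest (hB l hl) hl
    rw [h2]
    exact h _ h1
  · have h2 : (⨆ (l : ℕ) (_ : Q l), ((l : ℕ∞) : WithBot ℕ∞)) = ⊥ := by
      rw [iSup₂_eq_bot]
      intro l hl
      exact absurd ⟨l, hl⟩ hne
    rw [h2, WithBot.bot_add]
    exact bot_le

lemma kod_eq {ι : Type} {d : ℕ} {F : Type} [TopologicalSpace F] [ChartedSpace (Cm d) F]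
    (eqn : ι → F → (F → ℂ) → Prop) (c : ι → ℝ) :
    J.kod (Cm d) eqn c = ⨆ (l : ℕ) (_ : KodAt (d := d) eqn c l), ((l : ℕ∞) : WithBot ℕ∞) := rfl

lemma closed_pull {n d : ℕ} {X F : Type} [TopologicalSpace X] [ChartedSpace (Cm n) X]
    [IsManifold 𝓘(ℂ, Cm n) ω X] [TopologicalSpace F] [ChartedSpace (Cm d) F]
    [IsManifold 𝓘(ℂ, Cm d) ω F] {ι : F → X} (hι : ContMDiff 𝓘(ℂ, Cm d) 𝓘(ℂ, Cm n) ω ι)
    {A : D.FormM n X} (hA : IsClosedForm A) : IsClosedForm (pull ι A : D.FormM d F) :=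
  H776.KD.isClosedForm_pullM hA hι

lemma le_dim {d : ℕ} {F : Type} [TopologicalSpace F] [T2Space F] [CompactSpace F]
    [ChartedSpace (Cm d) F] [IsManifold 𝓘(ℂ, Cm d) ω F] {A B : D.FormM d F}
    (hA : IsClosedForm A) (hB : IsClosedForm B) {c : ℝ} (hc : 0 < c) {l : ℕ}
    (h : ∀ᶠ s : ℝ in atTop, c * s ^ l ≤ intX fun (e : Chart d F) z => (addF A s B e z).det.re) :
    l ≤ d := by
  have h4 : ∀ᶠ s : ℝ in atTop, c * s ^ l ≤ (H564.volP A B).eval s := by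
    filter_upwards [h] with s hs
    rw [H564.volP_eval hA hB]
    exact hs
  exact (lead_of_growth hc h4).1.trans (natDegree_volP _ _)

theorem numNefF_of (hG : FibGrow) (hN : NumNef) : NumNefF := by
  intro n p d hn X Z Y F _ _ _ _ _ _ _ _ _ _ _ _ _ _ _ _ _ _ _ _ χ hχ Δ hΔ m hm k hk θ β hθ hβ
    W hW j hj f hf i hi hinj ν c C hc h1 h2 hoff hβd hWF
  have hι : ContMDiff 𝓘(ℂ, Cm d) 𝓘(ℂ, Cm n) ω (fun t => j (i t)) := hj.1.comp hi.hol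
  have hιimm : ∀ t, Function.Injective (mfderiv 𝓘(ℂ, Cm d) 𝓘(ℂ, Cm n) (fun t => j (i t)) t) := by
    intro t
    have h4 : mfderiv 𝓘(ℂ, Cm d) 𝓘(ℂ, Cm n) (fun t => j (i t)) t =
        (mfderiv 𝓘(ℂ, Cm n) 𝓘(ℂ, Cm n) j (i t)).comp (mfderiv 𝓘(ℂ, Cm d) 𝓘(ℂ, Cm n) i t) :=
      mfderiv_comp t ((hj.1 (i t)).mdifferentiableAt (by simp))
        ((hi.hol t).mdifferentiableAt (by simp))
    rw [h4]
    exact (hj.2.2.1 (i t)).comp (hi.immersive t)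
  have hgrow := hG n d X F χ hχ Δ hΔ m hm k hk θ β hθ hβ W (fun t => j (i t)) hι hιimm hoff hβd hWF
  rw [kod_eq]
  refine iSup_add_le (Q := KodAt (d := d) (fun (D : Set X) t g => ∃ e, J.IsLocalEq (Cm n) D e (j (i t)) ∧
    ∀ᶠ t' in 𝓝 t, g t' = e (j (i t'))) Δ) (B := d) (fun l hl => ?_) fun l hl => ?_
  · obtain ⟨c', hc', h3⟩ := hgrow l hl
    exact le_dim (closed_pull hι hβ.isClosedForm) (closed_pull hι hθ.1) hc' h3
  · obtain ⟨c', hc', h3⟩ := hgrow l hl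
    refine hN n p d hn X Z Y F χ hχ Δ hΔ m hm k hk θ β hθ hβ W hW j hj f hf i hi hinj ν l
      (min c c') C (lt_min hc hc') ?_ h2 ?_
    · filter_upwards [h1, eventually_ge_atTop 0] with s hs hs0
      exact (mul_le_mul_of_nonneg_right (min_le_left _ _) (pow_nonneg hs0 _)).trans hs
    · filter_upwards [h3, eventually_ge_atTop 0] with s hs hs0
      exact (mul_le_mul_of_nonneg_right (min_le_right _ _) (pow_nonneg hs0 _)).trans hs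

end Vale.Agent.P281.H342.NU
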