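import Vale.Agent.P281.H342.NU.Iface
import Vale.Agent.P281.H713.TL.Defs

/-! P281, theorem NU: the rows of the assembly, as propositions. -/

open scoped Manifold ContDiff Topology ComplexOrder
open Set Filter MeasureTheory Vale.Agent.P281.J Vale.Agent.P272.K Vale.Agent.P272.K.AMP
open Vale.Agent.P299
open Vale.Agent.P299.H882 (J xi qf detR)
open Vale.Agent.P272.K.INT (IsClosedForm intX)

noncomputable section

namespace Vale.Agent.P281.H342.NU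

open Vale.Agent.P281.H713 Vale.Agent.P281.H713.SA Vale.Agent.P281.H713.KD Vale.Agent.P281.H716
open Vale.Agent.P281.H167.GM (mixX mixD addF phiD)
open Vale.Agent.P281.H167.LC (vN)

/-- **Row N8 (a)**: the pointwise inequality on the tube. -/
def PtPart : Prop := ∀ (n p d k : ℕ) (_ : n = p + d) (_ : k ≤ p) (X : Type) [TopologicalSpace X]
  [T2Space X] [CompactSpace X] [ConnectedSpace X] [ChartedSpace (Cm n) X]
  [IsManifold 𝓘(ℂ, Cm n) ω X] (χ : D.FormM n X) (_ : IsKahler χ) (O : Set X) (y : X → Cm p)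
  (W : Set (Cm p)) (_ : IsTube (n := n) O y W) (y₁ : Cm p) (_ : y₁ ∈ W) (h : Fin k → Cm p → ℂ)
  (_ : ∀ j, AnalyticAt ℂ (h j) y₁) (_ : LinearIndependent ℂ fun j => fderiv ℂ (h j) y₁),
  ∃ V : Set (Cm p), IsOpen V ∧ y₁ ∈ V ∧ V ⊆ W ∧ (∀ j, ∀ q ∈ V, AnalyticAt ℂ (h j) q) ∧
    ∃ K : ℝ, 0 < K ∧ ∀ g G : D.FormM n X, IsKahler g → IsKahler G → ∀ e x, At e x → x ∈ O →
      y x ∈ V → bdet (rowsY y e (e x)) (G e (e x)) ≤
        K * (trX g G x ^ d * (∏ j, lapX g (fun z => Real.log (1 + ‖h j (y z)‖ ^ 2)) x) *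
          trX g χ x ^ (p - k)) * (g e (e x)).det.re

/-- **Row N8 (b)**: the density `b(y) dy ∧ dȳ ∧ G ^ d` is `B det χ`, `B` smooth. -/
def BPart : Prop := ∀ (n p : ℕ) (X : Type) [TopologicalSpace X]
  [T2Space X] [CompactSpace X] [ConnectedSpace X] [ChartedSpace (Cm n) X]
  [IsManifold 𝓘(ℂ, Cm n) ω X] (χ : D.FormM n X) (_ : IsKahler χ) (O : Set X) (y : X → Cm p)
  (W : Set (Cm p)) (_ : IsTube (n := n) O y W) (b₀ : Cm p → ℝ) (_ : ContDiff ℝ ∞ b₀)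
  (_ : HasCompactSupport b₀) (_ : tsupport b₀ ⊆ W) (_ : ∀ q, 0 ≤ b₀ q) (A : D.FormM n X)
  (_ : IsClosedForm A) (_ : ∀ e x, At e x → (A e (e x)).IsHermitian),
  ∃ B : X → ℝ, SmoothFn (n := n) B ∧ (∀ e x, At e x → B x * (χ e (e x)).det.re =
    tubeF O y b₀ x * bdet (rowsY y e (e x)) (A e (e x))) ∧ (IsKahler A → ∀ x, 0 ≤ B x)

/-- `(O, y)` is a tube in `j (Z)`, `y = c ∘ f` -/
structure IsTubeF {n p : ℕ} {X Z Y : Type} [TopologicalSpace X] [ChartedSpace (Cm n) X]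
    [TopologicalSpace Z] [ChartedSpace (Cm n) Z] [TopologicalSpace Y] [ChartedSpace (Cm p) Y]
    (j : Z → X) (f : Z → Y) (c : Chart p Y) (O : Set X) (y : X → Cm p) (W : Set (Cm p)) :
    Prop where
  tube : IsTube (n := n) O y W
  atlas : c ∈ atlas (Cm p) Y
  target : W ⊆ c.target
  lift : ∀ x ∈ O, ∃ z, j z = x ∧ f z ∈ c.source ∧ y x = c (f z) ∧
    Function.Surjective (mfderiv 𝓘(ℂ, Cm n) 𝓘(ℂ, Cm p) f z)

/-- **Row N8 (c)**: the tube. -/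
def TubePart : Prop := ∀ (n p d : ℕ) (_ : n = p + d) (X Z Y F : Type)
  [TopologicalSpace X] [T2Space X] [CompactSpace X] [ConnectedSpace X]
  [ChartedSpace (Cm n) X] [IsManifold 𝓘(ℂ, Cm n) ω X]
  [TopologicalSpace Z] [ChartedSpace (Cm n) Z] [IsManifold 𝓘(ℂ, Cm n) ω Z]
  [TopologicalSpace Y] [T2Space Y] [ConnectedSpace Y]
  [ChartedSpace (Cm p) Y] [IsManifold 𝓘(ℂ, Cm p) ω Y]
  [TopologicalSpace F] [T2Space F] [CompactSpace F] [ConnectedSpace F]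
  [ChartedSpace (Cm d) F] [IsManifold 𝓘(ℂ, Cm d) ω F]
  (j : Z → X) (_ : J.IsBigOpen (Cm n) j) (f : Z → Y) (_ : ContMDiff 𝓘(ℂ, Cm n) 𝓘(ℂ, Cm p) ω f)
  (i : F → Z) (_ : IsSmoothFibre (Cm n) (Cm p) (Cm d) f i) (_ : Function.Injective i),
  ∃ (c : Chart p Y) (O : Set X) (y : X → Cm p) (W : Set (Cm p)) (y₀ : Cm p),
    IsTubeF (n := n) j f c O y W ∧ y₀ ∈ W ∧ ∀ x, x ∈ range (fun t => j (i t)) ↔ x ∈ O ∧ y x = y₀

/-- **Row N8 (d)**: the mass on the tube. -/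
def TubeMass : Prop := ∀ (n p M : ℕ) (X Z Y : Type)
  [TopologicalSpace X] [T2Space X] [CompactSpace X] [ConnectedSpace X]
  [ChartedSpace (Cm n) X] [IsManifold 𝓘(ℂ, Cm n) ω X]
  [TopologicalSpace Z] [ChartedSpace (Cm n) Z] [IsManifold 𝓘(ℂ, Cm n) ω Z]
  [TopologicalSpace Y] [T2Space Y] [ConnectedSpace Y]
  [ChartedSpace (Cm p) Y] [IsManifold 𝓘(ℂ, Cm p) ω Y]
  (χ : D.FormM n X) (_ : IsKahler χ) (Δ : Set X → ℝ) (_ : J.IsSNC (Cm n) Δ)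
  (j : Z → X) (_ : J.IsBigOpen (Cm n) j) (f : Z → Y) (_ : ContMDiff 𝓘(ℂ, Cm n) 𝓘(ℂ, Cm p) ω f)
  (_ : ∃ z, Function.Surjective (mfderiv 𝓘(ℂ, Cm n) 𝓘(ℂ, Cm p) f z))
  (Dv : Fin M → Set X) (r : Fin M → X → ℝ) (R : Fin M → D.FormM n X)
  (_ : Function.Injective Dv) (_ : ∀ D, Δ D ≠ 0 ↔ ∃ i, Dv i = D) (_ : IsBd Dv r R)
  (φ : Chart n X → Cm n → ℝ) (_ : IsCanonicalMetric φ) (m₀ : ℕ) (_ : 0 < m₀)
  (_ : PsefK φ m₀ (fun i => Δ (Dv i)) R χ)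
  (𝒢 : Set (Set Y)) (_ : 𝒢.Finite) (_ : ∀ G ∈ 𝒢, J.IsPrime (Cm p) G)
  (m : ℕ) (K : Set X → ℕ) (_ : 0 < m) (_ : ∀ D, (K D : ℝ) ≤ m * Δ D) (σ₀ σ₁ : Y → ℂ)
  (_ : TL.IsPullSection (n := n) (p := p) m K 𝒢 j f σ₀)
  (_ : TL.IsPullSection (n := n) (p := p) m K 𝒢 j f σ₁)
  (c : Chart p Y) (O : Set X) (y : X → Cm p) (W : Set (Cm p)) (_ : IsTubeF (n := n) j f c O y W)
  (V : Set (Cm p)) (_ : IsOpen V) (_ : V ⊆ W)
  (_ : ∀ q ∈ V, c.symm q ∉ ⋃₀ 𝒢 ∧ σ₀ (c.symm q) ≠ 0 ∧ σ₁ (c.symm q) ≠ 0)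
  (b₀ : Cm p → ℝ) (_ : Continuous b₀) (_ : HasCompactSupport b₀) (_ : tsupport b₀ ⊆ V)
  (_ : ∀ q, b₀ q ∈ Icc (0 : ℝ) 1) (G : D.FormM n X) (_ : IsKahler G),
  J G (fun x => tubeF O y b₀ x *
    lapX G (fun z => Real.log (1 + ‖σ₁ (c.symm (y z)) / σ₀ (c.symm (y z))‖ ^ 2)) x) ≤
      m * mixX G (clsK φ (fun i => Δ (Dv i)) R)

end Vale.Agent.P281.H342.NU
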