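import Vale.Agent.P281.H342.NU.Main
import Vale.Agent.P281.H368.NU.Nef
import Vale.Agent.P281.H413.NU.Pt
import Vale.Agent.P281.H713.NU.Tube
import Vale.Agent.P281.H716.NU.TmF
import Vale.Agent.P281.H776.NU.Poly
import Vale.Agent.P281.H575.NU.Fin

/-! P281, theorem NU (numerical dimension, `K_X + Δ` nef): the rows. -/

open scoped Manifold ContDiff Topology ComplexOrder

noncomputable section

namespace Vale.Agent.P281.H342.NU

open Vale.Agent.P281

theorem tubePoly : TubePoly := by
  intro n p X _ _ _ _ _ _ χ hχ O y W hT b₀ hb hbc hbW hb0 A B hA hA' hB hB'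
  obtain ⟨P, hP, h⟩ := H776.NU.tube_poly hT hb hbc hbW hA hB
  exact ⟨P, hP.trans (Nat.le_add_right _ _), h⟩

theorem tubeMassQ : TubeMassQ := H716.NU.tubeMass_sec H716.NU.massN

theorem numNef_lap (lap : LapPart) : NumNef :=
  numNef_all H368.NU.nefPart H776.NU.greenPart H776.NU.bPart tubePoly H413.NU.ptPart lap
    H575.NU.fibPartN H713.NU.tubePart tubeMassQ

end Vale.Agent.P281.H342.NU
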