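import Vale.Agent.P281.H342.NU.Iface2

/-! P281, theorem NU: one more row. -/

open scoped Manifold ContDiff Topology ComplexOrder
open Set Filter MeasureTheory Vale.Agent.P281.J Vale.Agent.P272.K Vale.Agent.P272.K.AMP
open Vale.Agent.P299

noncomputable section

namespace Vale.Agent.P281.H342.NU

open Vale.Agent.P281.H713 Vale.Agent.P281.H713.SA Vale.Agent.P281.H713.KD Vale.Agent.P281.H716

/-- **Row N8 (e)**: the Laplacian of `log (1 + |h(y)|²)` on the tube. -/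
def LapPart : Prop := ∀ (n p : ℕ) (X : Type) [TopologicalSpace X]
  [T2Space X] [CompactSpace X] [ConnectedSpace X] [ChartedSpace (Cm n) X]
  [IsManifold 𝓘(ℂ, Cm n) ω X] (O : Set X) (y : X → Cm p)
  (W : Set (Cm p)) (_ : IsTube (n := n) O y W) (V : Set (Cm p)) (_ : IsOpen V) (_ : V ⊆ W)
  (h : Cm p → ℂ) (_ : ∀ q ∈ V, AnalyticAt ℂ h q) (b₀ : Cm p → ℝ) (_ : Continuous b₀)
  (_ : HasCompactSupport b₀) (_ : tsupport b₀ ⊆ V) (_ : ∀ q, 0 ≤ b₀ q) (g : D.FormM n X)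
  (_ : IsKahler g),
  Continuous (fun x => tubeF O y b₀ x * lapX g (fun z => Real.log (1 + ‖h (y z)‖ ^ 2)) x) ∧
    ∀ x, 0 ≤ tubeF O y b₀ x * lapX g (fun z => Real.log (1 + ‖h (y z)‖ ^ 2)) x

end Vale.Agent.P281.H342.NU
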