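import Vale.Agent.P281.H342.NU.Cls
import Vale.Agent.P281.H342.NU.Iface3

/-! P281, theorem NU: the inequality of Khovanskii and Teissier for `β + s θ`. -/

open scoped Manifold ContDiff Topology ComplexOrder
open Set Filter MeasureTheory Vale.Agent.P281 Vale.Agent.P272.K Vale.Agent.P272.K.AMP
open Vale.Agent.P299

open Vale.Agent.P272.K.INT (IsClosedForm intX)

set_option linter.unusedSectionVars false

noncomputable section

namespace Vale.Agent.P281.H342.NU

open Vale.Agent.P281.H713 Vale.Agent.P281.H713.SA Vale.Agent.P281.H713.KD Vale.Agent.P281.H716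
open Vale.Agent.P281.H167.GM (mixX mixD addF phiD)
open Vale.Agent.P281.H227.GMC (isClosed_addF vol_interp epsPart cohPart isClosed_addH lb)

/-- the integral of `b(y) dy ∧ dȳ ∧ A ^ d` -/
def tubM {n p : ℕ} {X : Type} [TopologicalSpace X] [T2Space X] [CompactSpace X]
    [ChartedSpace (Cm n) X] [IsManifold 𝓘(ℂ, Cm n) ω X] (O : Set X) (y : X → Cm p)
    (b₀ : Cm p → ℝ) (A : D.FormM n X) : ℝ :=
  intX fun (e : Chart n X) z => tubeF O y b₀ (e.symm z) * bdet (rowsY y e z) (A e z)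

/-- **Row**: it is a polynomial on lines. -/
def TubePoly : Prop := ∀ (n p : ℕ) (X : Type) [TopologicalSpace X]
  [T2Space X] [CompactSpace X] [ConnectedSpace X] [ChartedSpace (Cm n) X]
  [IsManifold 𝓘(ℂ, Cm n) ω X] (χ : D.FormM n X) (_ : IsKahler χ) (O : Set X) (y : X → Cm p)
  (W : Set (Cm p)) (_ : IsTube (n := n) O y W) (b₀ : Cm p → ℝ) (_ : ContDiff ℝ ∞ b₀)
  (_ : HasCompactSupport b₀) (_ : tsupport b₀ ⊆ W) (_ : ∀ q, 0 ≤ b₀ q) (A B : D.FormM n X)
  (_ : IsClosedForm A) (_ : ∀ e x, At e x → (A e (e x)).IsHermitian)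
  (_ : IsClosedForm B) (_ : ∀ e x, At e x → (B e (e x)).IsHermitian),
  ∃ P : Polynomial ℝ, P.natDegree ≤ n + p ∧ ∀ s : ℝ, tubM O y b₀ (addF A s B) = P.eval s

variable {n p : ℕ} {X : Type} [TopologicalSpace X] [T2Space X] [CompactSpace X]
  [ConnectedSpace X] [ChartedSpace (Cm n) X] [IsManifold 𝓘(ℂ, Cm n) ω X]
  {χ θ β : D.FormM n X}

lemma herm_addF {A B : D.FormM n X} (hA : ∀ e x, At e x → (A e (e x)).IsHermitian)
    (hB : ∀ e x, At e x → (B e (e x)).IsHermitian) (s : ℝ) (e : Chart n X) (x : X) (h : At e x) :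
    (addF A s B e (e x)).IsHermitian :=
  (hA e x h).add ((hB e x h).smul (by simp [IsSelfAdjoint]))

theorem kt_s (green : GreenPart) (bp : BPart) (tp : TubePoly) {k d e' : ℕ} (hn : n = d + k + e')
    (hn0 : 0 < n) (hχ : IsKahler χ) (hβ : IsClosedForm β)
    (hβ0 : ∀ e x, At e x → (β e (e x)).PosSemidef) (hθ : IsNef χ θ)
    {O : Set X} {y : X → Cm p} {W : Set (Cm p)} (hT : IsTube (n := n) O y W) {b₀ : Cm p → ℝ}
    (hb : ContDiff ℝ ∞ b₀) (hbc : HasCompactSupport b₀) (hbW : tsupport b₀ ⊆ W)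
    (hb0 : ∀ q, 0 ≤ b₀ q) {Λ : D.FormM n X} (hΛ : IsClosedForm Λ) {μ : ℝ}
    (T : Fin k → D.FormM n X → X → ℝ)
    (hTc : ∀ (j : Fin k) (g : D.FormM n X), IsKahler g → Continuous (T j g) ∧ ∀ x, 0 ≤ T j g x)
    (hmass : ∀ (j : Fin k) (g : D.FormM n X), IsKahler g → H882.J g (T j g) ≤ μ * mixX g Λ) {K : ℝ} (hK : 0 < K)
    (hpt : ∀ g G : D.FormM n X, IsKahler g → IsKahler G → ∀ e x, At e x →
      tubeF O y b₀ x * bdet (rowsY y e (e x)) (G e (e x)) ≤
        K * (trX g G x ^ d * (∏ j, T j g x) * trX g χ x ^ e') * (g e (e x)).det.re)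
    {s : ℝ} (hs : 0 ≤ s) :
    0 ≤ tubM O y b₀ (addF β s θ) ∧
    tubM O y b₀ (addF β s θ) * vol (addF β s θ) ^ (n - 1) ≤
      K * ((n * vol (addF β s θ)) ^ d * (max 0 (μ * mixX (addF β s θ) Λ)) ^ k *
        mixX (addF β s θ) χ ^ e') := by
  have hχc := INT.IsKahler.isClosedForm hχ
  have hχh : ∀ e x, At e x → (χ e (e x)).IsHermitian := fun e x h => (hχ.posDef e x h).isHermitian
  have hA := isClosed_addF hβ hθ.1 s
  set A : D.FormM n X := addF β s θ with hAdef
  have hAh : ∀ e x, At e x → (A e (e x)).IsHermitian :=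
    herm_addF (fun e x h => (hβ0 e x h).isHermitian) hθ.2.1 s
  obtain ⟨P, -, hP⟩ := tp n p X χ hχ O y W hT b₀ hb hbc hbW hb0 A χ hA hAh hχc hχh
  have hM : Tendsto (fun ε : ℝ => tubM O y b₀ (addF A ε χ)) (𝓝[>] 0) (𝓝 (tubM O y b₀ A)) := by
    have h0 : tubM O y b₀ A = P.eval 0 := by
      rw [← hP 0]
      exact INT.intX_congr fun e x hx => by simp [addF]
    rw [h0]
    simp only [hP]
    exact (P.continuous.tendsto 0).mono_left nhdsWithin_le_nhds
  have hV := tendsto_vol hA hχc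
  have hX := epsPart n X A χ χ hA hχc hχc
  have hY := epsPart n X A Λ χ hA hΛ hχc
  have key : ∀ ε : ℝ, 0 < ε → 0 ≤ tubM O y b₀ (addF A ε χ) ∧
      tubM O y b₀ (addF A ε χ) * vol (addF A ε χ) ^ (n - 1) ≤
      K * ((n * vol (addF A ε χ)) ^ d * (max 0 (μ * mixX (addF A ε χ) Λ)) ^ k *
        mixX (addF A ε χ) χ ^ e') := by
    intro ε hε
    obtain ⟨U, hU, hG⟩ := exists_kahler hχ hβ hβ0 hθ hs hε
    have hAε := isClosed_addF hA hχc ε
    have hAεh := herm_addF hAh hχh ε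
    set Aε : D.FormM n X := addF A ε χ with hAεdef
    set G : D.FormM n X := addH Aε U with hGdef
    have hGc := INT.IsKahler.isClosedForm hG
    obtain ⟨B, hBs, hBe, hB0⟩ := bp n p X χ hχ O y W hT b₀ hb hbc hbW hb0 G hGc
      (fun e x h => (hG.posDef e x h).isHermitian)
    have hB0' := hB0 hG
    have h1 : H882.J χ B = tubM O y b₀ Aε := by
      have h2 : H882.J χ B = tubM O y b₀ G := by
        refine INT.intX_congr fun e x hx => ?_
        show B (e.symm (e x)) * (χ e (e x)).det.re = tubeF O y b₀ (e.symm (e x)) * _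
        rw [hx.left_inv]
        exact hBe e x hx
      rw [h2]
      exact green n p X χ hχ O y W hT b₀ hb hbc hbW Aε hAε hAεh U hU
    have h3 : H882.J G (fun _ => 1) = vol Aε := by
      rw [← vol_addH hAε hU]
      exact INT.intX_congr fun e x hx => one_mul _
    have h4 : mixX G G = n * vol Aε := by rw [mixX_self, vol_addH hAε hU]
    have h5 : mixX G χ = mixX Aε χ := mixX_addH hAε hχc hU
    have h6 : mixX G Λ = mixX Aε Λ := mixX_addH hAε hΛ hU
    have h7 := H716.NU.kt (n := n) hn hn0 hG hχ hBs hB0' T (K := K)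
      (D := max 0 (μ * mixX Aε Λ)) hK (le_max_left _ _) (fun U' hU' hg j => by
        refine ⟨(hTc j _ hg).1, (hTc j _ hg).2, (hmass j _ hg).trans ?_⟩
        rw [mixX_addH hGc hΛ hU', h6]
        exact le_max_right _ _) (fun U' hU' hg c x hx => by
        rw [hBe c x hx]
        exact hpt _ G hg hG c x hx)
    rw [h1, h3, h4, h5] at h7
    refine ⟨?_, h7⟩
    rw [← h1]
    exact INT.intX_nonneg fun e x hx => by
      show 0 ≤ B (e.symm (e x)) * _
      exact mul_nonneg (hB0' _) (Complex.lt_def.1 (hχ.posDef e x hx).det_pos).1.le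
  refine ⟨ge_of_tendsto hM ?_, le_of_tendsto_of_tendsto (hM.mul (hV.pow (n - 1)))
    ((((hV.const_mul (n : ℝ)).pow d).mul ((tendsto_const_nhds.max (hY.const_mul μ)).pow k)).mul
      (hX.pow e') |>.const_mul K) ?_⟩
  · filter_upwards [self_mem_nhdsWithin] with ε hε
    exact (key ε hε).1
  · filter_upwards [self_mem_nhdsWithin] with ε hε
    exact (key ε hε).2

end Vale.Agent.P281.H342.NU
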