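import Vale.Agent.P281.H342.NU.Pt1
import Vale.Agent.P281.H342.NU.Stmt
import Vale.Agent.P281.H776.KD.FK
import Vale.Agent.P281.H564.GMb

/-! P281, theorem NU (numerical dimension, `K_X + Δ` nef): the theorem, from its rows. -/

open scoped Manifold ContDiff Topology ComplexOrder
open Set Filter MeasureTheory Vale.Agent.P281 Vale.Agent.P272.K Vale.Agent.P272.K.AMP
open Vale.Agent.P299
open Vale.Agent.P272.K.INT (IsClosedForm intX)

set_option linter.unusedSectionVars false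

noncomputable section

namespace Vale.Agent.P281.H342.NU

open Vale.Agent.P281.H713 Vale.Agent.P281.H713.SA Vale.Agent.P281.H713.KD Vale.Agent.P281.H716
open Vale.Agent.P281.H167.GM (mixX mixD addF phiD)
open Vale.Agent.P281.H227.GMC (isClosed_addF vol_interp epsPart cohPart isClosed_addH lb)
open Vale.Agent.P281.H368.MFS (IsSemiPos VolLoc ConAt pull)
open Vale.Agent.P281.H342.U (add_kodF_le)

lemma vol_nn {n : ℕ} {X : Type} [TopologicalSpace X] [T2Space X] [CompactSpace X]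
    [ConnectedSpace X] [ChartedSpace (Cm n) X] [IsManifold 𝓘(ℂ, Cm n) ω X] {χ θ β : D.FormM n X}
    (hχ : IsKahler χ) (hβ : IsClosedForm β) (hβ0 : ∀ e x, At e x → (β e (e x)).PosSemidef)
    (hθ : IsNef χ θ) {s : ℝ} (hs : 0 ≤ s) : 0 ≤ vol (addF β s θ) := by
  have hχc := INT.IsKahler.isClosedForm hχ
  have hA := isClosed_addF hβ hθ.1 s
  refine ge_of_tendsto (tendsto_vol hA hχc) ?_
  filter_upwards [self_mem_nhdsWithin] with ε hε
  obtain ⟨U, hU, hg⟩ := exists_kahler hχ hβ hβ0 hθ hs (show (0 : ℝ) < ε from hε)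
  rw [← vol_addH (isClosed_addF hA hχc ε) hU]
  exact INT.intX_nonneg fun e x he => (Complex.lt_def.1 (hg.posDef e x he).det_pos).1.le

lemma natDegree_volP {d : ℕ} {F : Type} [TopologicalSpace F] [T2Space F] [CompactSpace F]
    [ChartedSpace (Cm d) F] [IsManifold 𝓘(ℂ, Cm d) ω F] (A B : D.FormM d F) :
    (H564.volP A B).natDegree ≤ d := by
  refine Polynomial.natDegree_sum_le_of_forall_le _ _ fun j _ => ?_
  refine (Polynomial.natDegree_C_mul_le _ _).trans ?_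
  have h : (Lagrange.basis (Finset.univ : Finset (Fin (d + 1))) (fun i => ((i : ℕ) : ℝ)) j).degree =
      ((Finset.univ : Finset (Fin (d + 1))).card - 1 : ℕ) :=
    Lagrange.degree_basis (fun a _ b _ hab => by
      have h1 : ((a : ℕ) : ℝ) = ((b : ℕ) : ℝ) := hab
      exact Fin.ext (by exact_mod_cast h1)) (Finset.mem_univ j)
  rw [Finset.card_univ, Fintype.card_fin, Nat.add_sub_cancel] at h
  exact (Polynomial.natDegree_eq_of_degree_eq_some h).le

lemma le_of_surj {p l : ℕ} {v : Fin l → Cm p →L[ℂ] ℂ}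
    (h : Function.Surjective fun (ξ : Cm p) (b : Fin l) => v b ξ) : l ≤ p := by
  set D : Cm p →ₗ[ℂ] (Fin l → ℂ) := LinearMap.pi fun b => (v b : Cm p →ₗ[ℂ] ℂ)
  have hD : Function.Surjective D := h
  have h1 := LinearMap.finrank_range_add_finrank_ker D
  rw [LinearMap.range_eq_top.2 hD, finrank_top, Module.finrank_fin_fun,
    Module.finrank_fin_fun] at h1
  omega

/-- the bump functions -/
lemma exists_bumps {p : ℕ} {V : Set (Cm p)} (hV : IsOpen V) {y₁ : Cm p} (hy : y₁ ∈ V) :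
    ∃ b₀ b₁ : Cm p → ℝ, ContDiff ℝ ∞ b₀ ∧ HasCompactSupport b₀ ∧ tsupport b₀ ⊆ V ∧
      (∀ q, 0 ≤ b₀ q) ∧ ∫ q, b₀ q = 1 ∧ (∃ S : ℝ, 0 < S ∧ ∀ q, b₀ q ≤ S) ∧
      Continuous b₁ ∧ HasCompactSupport b₁ ∧ tsupport b₁ ⊆ V ∧ (∀ q, b₁ q ∈ Icc (0 : ℝ) 1) ∧
      ∀ q, b₀ q ≠ 0 → b₁ q = 1 := by
  obtain ⟨ρ, hρ, hb⟩ := Metric.isOpen_iff.1 hV y₁ hy
  let f₀ : ContDiffBump y₁ := ⟨ρ / 8, ρ / 4, by positivity, by linarith⟩
  let f₁ : ContDiffBump y₁ := ⟨ρ / 4, ρ / 2, by positivity, by linarith⟩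
  have hs : ∀ f : ContDiffBump y₁, f.rOut < ρ → tsupport (f : Cm p → ℝ) ⊆ V := by
    intro f hf
    rw [f.tsupport_eq]
    exact (Metric.closedBall_subset_ball hf).trans hb
  have hc : ContDiff ℝ ∞ (f₀.normed volume) := f₀.contDiff_normed
  refine ⟨f₀.normed volume, f₁, hc, f₀.hasCompactSupport_normed, ?_, f₀.nonneg_normed,
    f₀.integral_normed, ?_, f₁.continuous, f₁.hasCompactSupport, hs f₁ (by
      show ρ / 2 < ρ
      linarith), fun q => ⟨f₁.nonneg, f₁.le_one⟩, ?_⟩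
  · rw [f₀.tsupport_normed_eq]
    exact (Metric.closedBall_subset_ball (by show ρ / 4 < ρ; linarith)).trans hb
  · obtain ⟨C, hC⟩ := f₀.hasCompactSupport_normed (μ := volume) |>.exists_bound_of_continuous
      hc.continuous
    refine ⟨|C| + 1, by positivity, fun q => ?_⟩
    have h1 := (le_abs_self _).trans (hC q)
    have h2 := le_abs_self C
    linarith
  · intro q hq
    have h1 : q ∈ Function.support (f₀.normed volume) := hq
    rw [f₀.support_normed_eq] at h1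
    exact f₁.one_of_mem_closedBall (Metric.ball_subset_closedBall h1)

section main

variable {n p d : ℕ} {X Z Y F : Type}
  [TopologicalSpace X] [T2Space X] [CompactSpace X] [ConnectedSpace X]
  [ChartedSpace (Cm n) X] [IsManifold 𝓘(ℂ, Cm n) ω X]
  [TopologicalSpace Z] [ChartedSpace (Cm n) Z] [IsManifold 𝓘(ℂ, Cm n) ω Z]
  [TopologicalSpace Y] [T2Space Y] [ConnectedSpace Y]
  [ChartedSpace (Cm p) Y] [IsManifold 𝓘(ℂ, Cm p) ω Y]
  [TopologicalSpace F] [T2Space F] [CompactSpace F] [ConnectedSpace F]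
  [ChartedSpace (Cm d) F] [IsManifold 𝓘(ℂ, Cm d) ω F]

lemma pull_addF (ι : F → X) (A B : D.FormM n X) (s : ℝ) :
    (pull ι (addF A s B) : D.FormM d F) = addF (pull ι A) s (pull ι B) := by
  funext e z
  simp only [pull, addF, Matrix.mul_add, Matrix.add_mul, Matrix.mul_smul, Matrix.smul_mul]

/-- **Theorem NU**: the numerical dimension, `K_X + Δ` nef: `a + κ(f | Δ) ≤ ν`. -/
theorem numNef_of (nef : NefPart) (green : GreenPart) (bp : BPart) (tp : TubePoly) (pt : PtPart)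
    (lap : LapPart) (fib : FibPartN) (tube : TubePart) (tm : TubeMassQ) (hn : n = p + d)
    {χ : D.FormM n X} (hχ : IsKahler χ) {Δ : Set X → ℝ} (hΔ : J.IsSNC (Cm n) Δ)
    {m : ℕ} (hm : 0 < m) {k : Set X → ℕ} (hk : ∀ D, (k D : ℝ) = m * Δ D)
    {θ β : D.FormM n X} (hθ : IsNef χ θ) (hβ : IsSemiPos β) {W : X → ℝ}
    (hW : ∀ x, ∃ (r : ℕ) (g : Fin r → X → ℂ) (a : Fin r → ℕ),
      VolLoc n m (fun (D : Set X) z g => J.IsLocalEq (Cm n) D g z) k W (fun _ _ => 0) θ x g a ∧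
      ∀ᶠ z in 𝓝 x, ∀ i, g i z = 0 → ConAt n (g i) β θ z)
    {j : Z → X} (hj : J.IsBigOpen (Cm n) j) {f : Z → Y}
    (hf : ContMDiff 𝓘(ℂ, Cm n) 𝓘(ℂ, Cm p) ω f)
    {i : F → Z} (hi : IsSmoothFibre (Cm n) (Cm p) (Cm d) f i) (hinj : Function.Injective i)
    {ν a : ℕ} {c C : ℝ} (hc : 0 < c)
    (h1 : ∀ᶠ s : ℝ in atTop, c * s ^ ν ≤ vol (addF β s θ))
    (h2 : ∀ᶠ s : ℝ in atTop, vol (addF (addF β s θ) 1 χ) ≤ C * s ^ ν)
    (h3 : ∀ᶠ s : ℝ in atTop, c * s ^ a ≤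
      vol (addF (pull (fun t => j (i t)) β) s (pull (fun t => j (i t)) θ) : D.FormM d F)) :
    ((a : ℕ∞) : WithBot ℕ∞) + TL.kodF (n := n) (p := p) Δ j f ≤ ((ν : ℕ∞) : WithBot ℕ∞) := by
  classical
  obtain ⟨M, Dv, r, R, φ, hDinj, hDv, hBd, hφ, hps, hmix⟩ :=
    nef n X χ hχ Δ hΔ m hm k hk θ β hθ hβ W hW
  have hβc := hβ.isClosedForm
  have hθc := hθ.1
  have hχc := INT.IsKahler.isClosedForm hχ
  set Λ : D.FormM n X := clsK φ (fun i => Δ (Dv i)) R with hΛd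
  have hΛ : IsClosedForm Λ := H342.KG.closed_cls hBd.closed hφ
  set ι : F → X := fun t => j (i t) with hιd
  have hι : ContMDiff 𝓘(ℂ, Cm d) 𝓘(ℂ, Cm n) ω ι := hj.1.comp hi.hol
  have hPβ : IsClosedForm (pull ι β : D.FormM d F) := H776.KD.isClosedForm_pullM hβc hι
  have hPθ : IsClosedForm (pull ι θ : D.FormM d F) := H776.KD.isClosedForm_pullM hθc hι
  set PF := H564.volP (pull ι β : D.FormM d F) (pull ι θ) with hPFd
  have hPF : ∀ s, PF.eval s = vol (addF (pull ι β) s (pull ι θ) : D.FormM d F) :=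
    fun s => H564.volP_eval hPβ hPθ s
  have hPFdeg : PF.natDegree ≤ d := natDegree_volP _ _
  have h3' : ∀ᶠ s : ℝ in atTop, c * s ^ a ≤ PF.eval s := by
    simp only [hPF]
    exact h3
  refine add_kodF_le fun l hl => ?_
  obtain ⟨m₂, KΔ, 𝒢, σN, yy, hm₂, hKΔ, h𝒢fin, h𝒢pr, hpull, hy₀𝒢, hσ0, hσl⟩ := hl
  have hlp : l ≤ p := le_of_surj hσl
  rcases Nat.eq_zero_or_pos n with hn0 | hn0
  · have h4 := (lead_of_growth hc h3').1
    omega
  -- the tube
  obtain ⟨c', O, y, W', y₀, hTF, hy₀, hrange⟩ := tube n p d hn X Z Y F j hj f hf i hi hinj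
  have hT := hTF.tube
  obtain ⟨ε, hε, hclose⟩ := growth_of_close (N := n + p) (hPFdeg.trans (by omega)) hc h3'
  have hβh : ∀ e x, At e x → (β e (e x)).IsHermitian := fun e x h =>
    (hβ.posSemidef e x h).isHermitian
  have hχh : ∀ e x, At e x → (χ e (e x)).IsHermitian := fun e x h => (hχ.posDef e x h).isHermitian
  have hιinj : Function.Injective ι := fun t t' h => hinj (hj.2.1.injective h)
  have hιimm : ∀ t, Function.Injective (mfderiv 𝓘(ℂ, Cm d) 𝓘(ℂ, Cm n) ι t) := by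
    intro t
    have h4 : mfderiv 𝓘(ℂ, Cm d) 𝓘(ℂ, Cm n) ι t =
        (mfderiv 𝓘(ℂ, Cm n) 𝓘(ℂ, Cm n) j (i t)).comp (mfderiv 𝓘(ℂ, Cm d) 𝓘(ℂ, Cm n) i t) :=
      mfderiv_comp t ((hj.1 (i t)).mdifferentiableAt (by simp))
        ((hi.hol t).mdifferentiableAt (by simp))
    rw [h4]
    exact (hj.2.2.1 (i t)).comp (hi.immersive t)
  have hfib : ∀ q : ℕ, ∃ V : Set (Cm p), IsOpen V ∧ y₀ ∈ V ∧ V ⊆ W' ∧ ∀ b₀ : Cm p → ℝ,
      Continuous b₀ → HasCompactSupport b₀ → tsupport b₀ ⊆ V → (∀ q, 0 ≤ b₀ q) →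
      |tubM O y b₀ (addF β (q : ℝ) θ) - (∫ q, b₀ q) * PF.eval (q : ℝ)| ≤ ε * ∫ q, b₀ q := by
    intro q
    obtain ⟨V, hV1, hV2, hV3, hV4⟩ := fib n p d hn X F O y W' hT ι hι hιinj hιimm y₀ hy₀ hrange
      (addF β (q : ℝ) θ) (isClosed_addF hβc hθc q) (herm_addF hβh hθ.2.1 q) ε hε
    refine ⟨V, hV1, hV2, hV3, fun b₀ k1 k2 k3 k4 => ?_⟩
    have h5 := hV4 b₀ k1 k2 k3 k4
    rw [pull_addF] at h5
    rw [hPF]
    exact h5
  choose Vq hVqo hVqy hVqW hVqf using hfib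
  set V : Set (Cm p) := W' ∩ ⋂ q ∈ Finset.range (n + p + 1), Vq q with hVd
  have hVo : IsOpen V := hT.openW.inter (isOpen_biInter_finset fun q _ => hVqo q)
  have hVW : V ⊆ W' := inter_subset_left
  have hVy : y₀ ∈ V := ⟨hy₀, mem_iInter₂.2 fun q _ => hVqy q⟩
  obtain ⟨y₁, V₁, σ', hy₁, hV₁o, hV₁V, hsec', hpole', hV₁, hana, hlin⟩ := good_point (V := V) hj
    h𝒢fin h𝒢pr hpull hy₀𝒢 hσ0 hσl hTF.atlas hVo (hVW.trans hTF.target) ⟨y₀, hVy⟩
  set h : Fin l → Cm p → ℂ := fun b q => σ' b (c'.symm q) / σN 0 (c'.symm q) with hhd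
  obtain ⟨V₂, hV₂o, hy₂, hV₂W, hana₂, K, hK, hpt⟩ := pt n p d l hn hlp X χ hχ O y W' hT y₁
    (hVW (hV₁V hy₁)) h hana hlin
  set V₃ : Set (Cm p) := V₁ ∩ V₂ with hV₃d
  have hV₃o : IsOpen V₃ := hV₁o.inter hV₂o
  have hV₃W : V₃ ⊆ W' := inter_subset_right.trans hV₂W
  obtain ⟨b₀, b₁, hb₀, hb₀c, hb₀V, hb₀0, hb₀i, ⟨S, hS, hb₀S⟩, hb₁, hb₁c, hb₁V, hb₁I, hb₀₁⟩ :=
    exists_bumps hV₃o (y₁ := y₁) ⟨hy₁, hy₂⟩
  set T : Fin l → D.FormM n X → X → ℝ := fun b g x =>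
    tubeF O y b₁ x * lapX g (fun z => Real.log (1 + ‖h b (y z)‖ ^ 2)) x with hTd
  have hTc : ∀ (b : Fin l) (g : D.FormM n X), IsKahler g →
      Continuous (T b g) ∧ ∀ x, 0 ≤ T b g x := fun b g hg =>
    lap n p X O y W' hT V₃ hV₃o hV₃W (h b) (fun q hq => hana₂ b q hq.2) b₁ hb₁ hb₁c hb₁V
      (fun q => (hb₁I q).1) g hg
  have hsub : ∃ z, Function.Surjective (mfderiv 𝓘(ℂ, Cm n) 𝓘(ℂ, Cm p) f z) := by
    obtain ⟨t⟩ : Nonempty F := inferInstance
    exact ⟨i t, hi.submersive t⟩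
  have hmass : ∀ (b : Fin l) (g : D.FormM n X), IsKahler g →
      H882.J g (T b g) ≤ (m₂ : ℝ) * mixX g Λ := fun b g hg =>
    tm n p M X Z Y χ hχ Δ hΔ j hj f hf hsub Dv r R hDinj hDv hBd φ hφ m hm hps 𝒢 h𝒢fin h𝒢pr m₂ KΔ
      hm₂ hKΔ (σN 0) (σ' b) (H498.isSec_of h𝒢pr (hpull 0)) (hsec' b)
      (fun x => H498.poleAt_of (hpull 0) x) (hpole' b) c' O y W' hTF V₃ hV₃o hV₃W
      (fun q hq => ⟨(hV₁ q hq.1).1, (hV₁ q hq.1).2.1, (hV₁ q hq.1).2.2 b⟩) b₁ hb₁ hb₁c hb₁V hb₁I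
      g hg
  obtain ⟨e', he'⟩ : ∃ e', p = l + e' := ⟨p - l, by omega⟩
  have hpe : p - l = e' := by omega
  have hpt' : ∀ g G : D.FormM n X, IsKahler g → IsKahler G → ∀ e x, At e x →
      tubeF O y b₀ x * bdet (rowsY y e (e x)) (G e (e x)) ≤
        S * K * (trX g G x ^ d * (∏ b, T b g x) * trX g χ x ^ e') * (g e (e x)).det.re := by
    intro g G hg hG e x hx
    have hgH := hg.toIsHermitian
    have hdet : 0 < (g e (e x)).det.re := (Complex.lt_def.1 (hg.posDef e x hx).det_pos).1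
    have htr : ∀ {A : D.FormM n X}, IsKahler A → 0 ≤ trX g A x := by
      intro A hA
      rw [trX_eq hgH hA.toIsHermitian.isForm hx]
      exact (Complex.le_def.1 (C2.trace_mul_nonneg (hg.posDef e x hx).inv.posSemidef
        (hA.posDef e x hx).posSemidef)).1
    have hR : 0 ≤ trX g G x ^ d * (∏ b, T b g x) * trX g χ x ^ e' :=
      mul_nonneg (mul_nonneg (pow_nonneg (htr hG) _)
        (Finset.prod_nonneg fun b _ => (hTc b g hg).2 x)) (pow_nonneg (htr hχ) _)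
    by_cases hx0 : x ∈ O ∧ b₀ (y x) ≠ 0
    · obtain ⟨hxO, hbx⟩ := hx0
      have hyV : y x ∈ V₃ := hb₀V (subset_tsupport _ hbx)
      have h5 := hpt g G hg hG e x hx hxO hyV.2
      have h6 : ∀ b, T b g x = lapX g (fun z => Real.log (1 + ‖h b (y z)‖ ^ 2)) x := by
        intro b
        simp only [hTd, tubeF, if_pos hxO, hb₀₁ _ hbx, one_mul]
      have h7 : tubeF O y b₀ x = b₀ (y x) := if_pos hxO
      rw [h7]
      have h8 : ∏ b, lapX g (fun z => Real.log (1 + ‖h b (y z)‖ ^ 2)) x = ∏ b, T b g x :=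
        Finset.prod_congr rfl fun b _ => (h6 b).symm
      rw [h8, hpe] at h5
      calc b₀ (y x) * bdet (rowsY y e (e x)) (G e (e x)) ≤
            b₀ (y x) * (K * (trX g G x ^ d * (∏ b, T b g x) * trX g χ x ^ e') *
              (g e (e x)).det.re) := mul_le_mul_of_nonneg_left h5 (hb₀0 _)
        _ ≤ S * (K * (trX g G x ^ d * (∏ b, T b g x) * trX g χ x ^ e') *
              (g e (e x)).det.re) :=
            mul_le_mul_of_nonneg_right (hb₀S _) (mul_nonneg (mul_nonneg hK.le hR) hdet.le)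
        _ = _ := by ring
    · have h7 : tubeF O y b₀ x = 0 := by
        by_cases hxO : x ∈ O
        · have h8 : b₀ (y x) = 0 := by
            by_contra h9
            exact hx0 ⟨hxO, h9⟩
          rw [tubeF, if_pos hxO, h8]
        · rw [tubeF, if_neg hxO]
      rw [h7, zero_mul]
      exact mul_nonneg (mul_nonneg (mul_nonneg hS.le hK.le) hR) hdet.le
  have hkt := fun {s : ℝ} (hs : 0 ≤ s) => kt_s (k := l) (d := d) (e' := e') green bp tp
    (by omega) hn0 hχ hβc hβ.posSemidef hθ hT hb₀ hb₀c (hb₀V.trans hV₃W) hb₀0 hΛ (μ := (m₂ : ℝ)) T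
    hTc hmass (K := S * K) (mul_pos hS hK) hpt' hs
  -- growth of the tube integral
  obtain ⟨Q, hQd, hQ⟩ := tp n p X χ hχ O y W' hT b₀ hb₀ hb₀c (hb₀V.trans hV₃W) hb₀0 β θ hβc hβh hθc
    hθ.2.1
  obtain ⟨c₁, hc₁, hM⟩ := hclose Q hQd (fun q hq => by
    have h5 := hVqf q b₀ hb₀.continuous hb₀c (hb₀V.trans (fun z hz => by
      have h6 := (hV₁V hz.1).2
      exact mem_iInter₂.1 h6 q (Finset.mem_range.2 (Nat.lt_succ_of_le hq)))) hb₀0
    rw [hb₀i, one_mul, mul_one, hQ] at h5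
    exact h5) (fun s hs => by
    rw [← hQ]
    exact (hkt (zero_le_one.trans hs)).1)
  refine exp_le (n := n) (d := d) (k := l) (e := e') (by omega) hn0
    (M := fun s => tubM O y b₀ (addF β s θ)) (V := fun s => vol (addF β s θ))
    (Y := fun s => max 0 ((m₂ : ℝ) * mixX (addF β s θ) Λ)) (Z := fun s => mixX (addF β s θ) χ)
    (c₁ := c₁) (c₂ := c) (C₁ := C) (C₂ := m₂ * n) (C₃ := C) (K := S * K) hc₁ hc
    (mul_pos hS hK).le ?_ h1 ?_ ?_ ?_ ?_ ?_ ?_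
  · filter_upwards [hM] with s hs
    rw [hQ]
    exact hs
  · filter_upwards [h2, eventually_ge_atTop 0] with s hs hs0
    exact (mix_chi hχ hβc hβ.posSemidef hθ hs0).2.trans hs
  · exact Eventually.of_forall fun s => le_max_left _ _
  · filter_upwards [eventually_ge_atTop 0] with s hs0
    have h5 := mix_theta hχ hβc hβ.posSemidef hθ hs0
    have h6 : 0 ≤ vol (addF β s θ) * (n : ℝ) :=
      mul_nonneg (vol_nn hχ hβc hβ.posSemidef hθ hs0) (Nat.cast_nonneg _)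
    show s * max 0 ((m₂ : ℝ) * mixX (addF β s θ) Λ) ≤ m₂ * n * vol (addF β s θ)
    rw [hmix s]
    rcases max_cases (0 : ℝ) ((m₂ : ℝ) * mixX (addF β s θ) θ) with ⟨h7, -⟩ | ⟨h7, -⟩
    · rw [h7, mul_zero]
      have h8 : (0 : ℝ) ≤ m₂ := Nat.cast_nonneg _
      have := mul_nonneg h8 h6
      linarith
    · rw [h7]
      calc s * ((m₂ : ℝ) * mixX (addF β s θ) θ) = m₂ * (s * mixX (addF β s θ) θ) := by ring
        _ ≤ m₂ * (n * vol (addF β s θ)) := mul_le_mul_of_nonneg_left h5 (Nat.cast_nonneg _)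
        _ = _ := by ring
  · filter_upwards [eventually_ge_atTop 0] with s hs0
    exact mix_nn hχ hβc hβ.posSemidef hθ hs0 hχc fun e x h => (hχ.posDef e x h).posSemidef
  · filter_upwards [h2, eventually_ge_atTop 0] with s hs hs0
    exact (mix_chi hχ hβc hβ.posSemidef hθ hs0).1.trans hs
  · filter_upwards [eventually_ge_atTop 0] with s hs0
    exact (hkt hs0).2

end main

/-- **Theorem NU**, from its rows. -/
theorem numNef_all (nef : NefPart) (green : GreenPart) (bp : BPart) (tp : TubePoly) (pt : PtPart)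
    (lap : LapPart) (fib : FibPartN) (tube : TubePart) (tm : TubeMassQ) : NumNef := by
  intro n p d hn X Z Y F _ _ _ _ _ _ _ _ _ _ _ _ _ _ _ _ _ _ _ _ χ hχ Δ hΔ m hm k hk θ β hθ hβ
    W hW j hj f hf i hi hinj ν a c C hc h1 h2 h3
  exact numNef_of nef green bp tp pt lap fib tube tm hn hχ hΔ hm hk hθ hβ hW hj hf hi hinj hc h1 h2 h3

end Vale.Agent.P281.H342.NU
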