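import Vale.Agent.P281.H342.U.BrC
import Vale.Agent.P281.H342.U.Cnt
import Vale.Agent.P281.H342.NU.KTs
import Vale.Agent.P281.H716.LC.Br

/-! P281, theorem NU: the good point, and the last row. -/

open scoped Manifold ContDiff Topology ComplexOrder
open Set Filter Vale.Agent.P272.K Vale.Agent.P272.K.AMP

set_option linter.unusedSectionVars false

noncomputable section

namespace Vale.Agent.P281.H342.NU

open Vale.Agent.P281 Vale.Agent.P281.MF Vale.Agent.P281.ISO Vale.Agent.P281.H713.SA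
open Vale.Agent.P281.H716 Vale.Agent.P299.D Vale.Agent.P281.H787 Vale.Agent.P281.H713.KD
open Vale.Agent.P281.H498 Vale.Agent.P281.H716.LCB Vale.Agent.P281.H949.SA
open Vale.Agent.P281.H716.IsSys (eqL holV_chart)
open Vale.Agent.P281.H713.TL (IsPullSection)

/-- **Row N8 (d)**, with the weaker hypotheses `IsSec`, `PoleAt`. -/
def TubeMassQ : Prop := ∀ (n p M : ℕ) (X Z Y : Type)
  [TopologicalSpace X] [T2Space X] [CompactSpace X] [ConnectedSpace X]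
  [ChartedSpace (Cm n) X] [IsManifold 𝓘(ℂ, Cm n) ω X]
  [TopologicalSpace Z] [ChartedSpace (Cm n) Z] [IsManifold 𝓘(ℂ, Cm n) ω Z]
  [TopologicalSpace Y] [T2Space Y] [ConnectedSpace Y]
  [ChartedSpace (Cm p) Y] [IsManifold 𝓘(ℂ, Cm p) ω Y]
  (χ : FormM n X) (_ : IsKahler χ) (Δ : Set X → ℝ) (_ : J.IsSNC (Cm n) Δ)
  (j : Z → X) (_ : J.IsBigOpen (Cm n) j) (f : Z → Y) (_ : ContMDiff 𝓘(ℂ, Cm n) 𝓘(ℂ, Cm p) ω f)
  (_ : ∃ z, Function.Surjective (mfderiv 𝓘(ℂ, Cm n) 𝓘(ℂ, Cm p) f z))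
  (Dv : Fin M → Set X) (r : Fin M → X → ℝ) (R : Fin M → FormM n X)
  (_ : Function.Injective Dv) (_ : ∀ D, Δ D ≠ 0 ↔ ∃ i, Dv i = D) (_ : IsBd Dv r R)
  (φ : Chart n X → Cm n → ℝ) (_ : IsCanonicalMetric φ) (m₀ : ℕ) (_ : 0 < m₀)
  (_ : PsefK φ m₀ (fun i => Δ (Dv i)) R χ)
  (𝒢 : Set (Set Y)) (_ : 𝒢.Finite) (_ : ∀ G ∈ 𝒢, J.IsPrime (Cm p) G)
  (m : ℕ) (K : Set X → ℕ) (_ : 0 < m) (_ : ∀ D, (K D : ℝ) ≤ m * Δ D) (σ₀ σ₁ : Y → ℂ)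
  (_ : IsSec p m (⋃₀ 𝒢) σ₀) (_ : IsSec p m (⋃₀ 𝒢) σ₁)
  (_ : ∀ x, PoleAt n p m K 𝒢 j f σ₀ x) (_ : ∀ x, PoleAt n p m K 𝒢 j f σ₁ x)
  (c : Chart p Y) (O : Set X) (y : X → Cm p) (W : Set (Cm p)) (_ : IsTubeF (n := n) j f c O y W)
  (V : Set (Cm p)) (_ : IsOpen V) (_ : V ⊆ W)
  (_ : ∀ q ∈ V, c.symm q ∉ ⋃₀ 𝒢 ∧ σ₀ (c.symm q) ≠ 0 ∧ σ₁ (c.symm q) ≠ 0)
  (b₀ : Cm p → ℝ) (_ : Continuous b₀) (_ : HasCompactSupport b₀) (_ : tsupport b₀ ⊆ V)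
  (_ : ∀ q, b₀ q ∈ Icc (0 : ℝ) 1) (G : FormM n X) (_ : IsKahler G),
  Vale.Agent.P299.H882.J G (fun x => tubeF O y b₀ x *
    lapX G (fun z => Real.log (1 + ‖σ₁ (c.symm (y z)) / σ₀ (c.symm (y z))‖ ^ 2)) x) ≤
      m * Vale.Agent.P281.H167.GM.mixX G (clsK φ (fun i => Δ (Dv i)) R)

variable {n p M : ℕ} {X Z Y : Type}
  [TopologicalSpace X] [T2Space X] [CompactSpace X] [ConnectedSpace X]
  [ChartedSpace (Cm n) X] [IsManifold 𝓘(ℂ, Cm n) ω X]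
  [TopologicalSpace Z] [ChartedSpace (Cm n) Z] [IsManifold 𝓘(ℂ, Cm n) ω Z]
  [TopologicalSpace Y] [T2Space Y] [ConnectedSpace Y]
  [ChartedSpace (Cm p) Y] [IsManifold 𝓘(ℂ, Cm p) ω Y]

/-- **the good point** -/
theorem good_point {j : Z → X} (hj : J.IsBigOpen (Cm n) j) {f : Z → Y} {l m : ℕ} {K : Set X → ℕ}
    {𝒢 : Set (Set Y)} {σN : ℕ → Y → ℂ} {yy : Y}
    (h𝒢fin : 𝒢.Finite) (h𝒢pr : ∀ G ∈ 𝒢, J.IsPrime (Cm p) G)
    (hpull : ∀ b, IsPullSection (n := n) (p := p) m K 𝒢 j f (σN b))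
    (hy₀𝒢 : ∀ G ∈ 𝒢, yy ∉ G) (hσ0 : σN 0 yy ≠ 0)
    (hσl : Function.Surjective fun (ξ : Cm p) (b : Fin l) =>
      J.dif (Cm p) (fun w => σN (b + 1) w / σN 0 w) yy ξ)
    {c : Chart p Y} (hc : c ∈ atlas (Cm p) Y) {V : Set (Cm p)} (hV : IsOpen V)
    (hVt : V ⊆ c.target) (hne : V.Nonempty) :
    ∃ (y₁ : Cm p) (V₁ : Set (Cm p)) (σ' : Fin l → Y → ℂ), y₁ ∈ V₁ ∧ IsOpen V₁ ∧ V₁ ⊆ V ∧
      (∀ b, IsSec p m (⋃₀ 𝒢) (σ' b)) ∧ (∀ b x, PoleAt n p m K 𝒢 j f (σ' b) x) ∧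
      (∀ q ∈ V₁, c.symm q ∉ ⋃₀ 𝒢 ∧ σN 0 (c.symm q) ≠ 0 ∧ ∀ b, σ' b (c.symm q) ≠ 0) ∧
      (∀ b, AnalyticAt ℂ (fun q => σ' b (c.symm q) / σN 0 (c.symm q)) y₁) ∧
      LinearIndependent ℂ fun b => fderiv ℂ (fun q => σ' b (c.symm q) / σN 0 (c.symm q)) y₁ := by
  classical
  set σ : Fin (l + 1) → Y → ℂ := fun b => σN b with hσd
  have hσ0 : σ 0 yy ≠ 0 := hσ0
  have hσl : LinearIndependent ℂ (fun b : Fin l =>
      dif (Cm p) (fun w => σ b.succ w / σ 0 w) yy) :=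
    JB.linearIndependent_of_surjective hσl
  choose kb hkb hkbs using fun b : Fin (l + 1) => (hpull b).mero
  set k : Set Y → ℕ := fun G => ∑ b, kb b G with hkd
  set TY : Finset (Set Y) := h𝒢fin.toFinset with hTYdef
  have hTY : ∀ G, G ∈ TY ↔ G ∈ 𝒢 := fun G => Set.Finite.mem_toFinset _
  have hTYex : ∀ G ∈ TY, ∀ x, ∃ g, J.IsLocalEq (Cm p) G g x := fun G hG =>
    (h𝒢pr G ((hTY G).1 hG)).2.1
  have hsY : IsSys p (eqL p) TY := isSys_eqL hTYex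
  have hkG : ∀ G, k G ≠ 0 → G ∈ 𝒢 := by
    intro G hG
    obtain ⟨b, -, hb⟩ := Finset.exists_ne_zero_of_sum_ne_zero hG
    exact hkb b G hb
  have hkGT : ∀ G, k G ≠ 0 → G ∈ TY := fun G hG => (hTY G).2 (hkG G hG)
  have hσ : ∀ b, J.IsSection (Cm p) (eqL p) m k (σ b) := fun b =>
    hsY.mono (fun G => Finset.single_le_sum (f := fun b => kb b G) (fun _ _ => Nat.zero_le _)
      (Finset.mem_univ b)) hkGT (hkbs b)
  have hkfin : {G | k G ≠ 0}.Finite := h𝒢fin.subset fun G hG => hkG G hG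
  have hkpr : ∀ G, k G ≠ 0 → IsPrimeDivisor (Cm p) G := fun G hG => h𝒢pr G (hkG G hG)
  have hy₀ : ∀ G, k G ≠ 0 → yy ∉ G := fun G hG => hy₀𝒢 G (hkG G hG)
  have hodY := H713.SA.ind_open_dense (n := p) (κ := k) (s := σ) hkfin hkpr hσ ⟨yy, hy₀, hσ0, hσl⟩
  have h𝒢od := dense_compl_finite (X := Y) h𝒢fin (fun G hG => (h𝒢pr G hG).1) (fun G hG => by
    rw [dense_iff_inter_open]
    intro U hU hUne
    obtain ⟨x, hxU, hxD⟩ := IsLocalEq.exists_notMem (h𝒢pr G hG).2.1 hU hUne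
    exact ⟨x, hxU, hxD⟩)
  have hYd : Dense (H713.SA.Ind (n := p) k σ ∩ {y | ∀ G ∈ 𝒢, y ∉ G}) :=
    hodY.2.inter_of_isOpen_left h𝒢od.2 hodY.1
  have hopen : IsOpen (c.source ∩ c ⁻¹' V) := c.isOpen_inter_preimage hV
  obtain ⟨q₀, hq₀⟩ := hne
  have hne' : (c.source ∩ c ⁻¹' V).Nonempty :=
    ⟨c.symm q₀, c.map_target (hVt hq₀), by
      show c (c.symm q₀) ∈ V
      rw [c.right_inv (hVt hq₀)]
      exact hq₀⟩
  obtain ⟨y₂, ⟨hy₂s, hy₂V⟩, ⟨hkz, hσz, hσlz⟩, h𝒢z⟩ := hYd.inter_open_nonempty _ hopen hne'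
  have hAt : At c y₂ := ⟨hc, hy₂s⟩
  have hsec : ∀ b, IsSec p m (⋃₀ 𝒢) (σN b) := fun b => isSec_of h𝒢pr (hpull b)
  have hpole : ∀ b x, PoleAt n p m K 𝒢 j f (σN b) x := fun b => poleAt_of (hpull b)
  have hz𝒢 : y₂ ∉ ⋃₀ 𝒢 := by
    rintro ⟨G, hG, hGz⟩
    exact h𝒢z G hG hGz
  have hcb : ∀ b : Fin l, ∃ a : ℂ, σ b.succ y₂ + a * σ 0 y₂ ≠ 0 := by
    intro b
    by_cases h1 : σ b.succ y₂ = 0
    · exact ⟨1, by rw [h1, zero_add, one_mul]; exact hσz⟩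
    · exact ⟨0, by rw [zero_mul, add_zero]; exact h1⟩
  choose a ha using hcb
  set σ' : Fin l → Y → ℂ := fun b w => σ b.succ w + a b * σ 0 w with hσ'
  have hsec' : ∀ b, IsSec p m (⋃₀ 𝒢) (σ' b) := fun b => (hsec 0).add (hsec b.succ) (a b)
  have hpole' : ∀ b x, PoleAt n p m K 𝒢 j f (σ' b) x := fun b x =>
    (hpole 0 x).add hj (hpole b.succ x) (a b)
  have hq := fun b : Fin l => (hsec 0).quotient (hsec b.succ) hz𝒢 hσz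
  have hq' := fun b : Fin l => (hsec 0).quotient (hsec' b) hz𝒢 hσz
  have hq'' := fun b : Fin l => (hsec' b).quotient (hsec 0) hz𝒢 (ha b)
  have hne0 : ∀ᶠ w in 𝓝 y₂, σN 0 w ≠ 0 := by
    rcases isEmpty_or_nonempty (Fin l) with hl | ⟨⟨b⟩⟩
    · exact ((hsec 0).quotient (hsec 0) hz𝒢 hσz).2
    · exact (hq b).2
  -- the neighbourhood
  have hev : ∀ᶠ w in 𝓝 y₂, w ∉ ⋃₀ 𝒢 ∧ σN 0 w ≠ 0 ∧ ∀ b, σ' b w ≠ 0 := by
    have h1 : ∀ᶠ w in 𝓝 y₂, ∀ G ∈ 𝒢, w ∉ G := h𝒢od.1.mem_nhds h𝒢z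
    filter_upwards [h1, hne0, eventually_all.2 fun b => (hq'' b).2] with w h2 h3 h4
    refine ⟨?_, h3, h4⟩
    rintro ⟨G, hG, hGz⟩
    exact h2 G hG hGz
  have hcs : ContinuousAt c.symm (c y₂) := c.continuousAt_symm (c.map_source hy₂s)
  have hev2 : ∀ᶠ q in 𝓝 (c y₂), (c.symm q ∉ ⋃₀ 𝒢 ∧ σN 0 (c.symm q) ≠ 0 ∧
      ∀ b, σ' b (c.symm q) ≠ 0) ∧ q ∈ V := by
    have h1 : ∀ᶠ w in 𝓝 (c.symm (c y₂)), w ∉ ⋃₀ 𝒢 ∧ σN 0 w ≠ 0 ∧ ∀ b, σ' b w ≠ 0 := by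
      rw [c.left_inv hy₂s]
      exact hev
    exact (hcs.eventually h1).and (hV.mem_nhds hy₂V)
  obtain ⟨V₁, hV₁, hV₁o, hy₁⟩ := eventually_nhds_iff.1 hev2
  have hD : ∀ b, fderiv ℂ (fun q => σ' b (c.symm q) / σN 0 (c.symm q)) (c y₂) =
      fderiv ℂ (fun q => σ b.succ (c.symm q) / σ 0 (c.symm q)) (c y₂) := by
    intro b
    have h1 : (fun q => σ' b (c.symm q) / σN 0 (c.symm q)) =ᶠ[𝓝 (c y₂)]
        fun q => σ b.succ (c.symm q) / σ 0 (c.symm q) + a b := by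
      have h2 : ∀ᶠ q in 𝓝 (c y₂), σN 0 (c.symm q) ≠ 0 := hev2.mono fun q hq => hq.1.2.1
      filter_upwards [h2] with q hq
      show (σ b.succ (c.symm q) + a b * σN 0 (c.symm q)) / σN 0 (c.symm q) = _
      rw [add_div, mul_div_assoc, div_self hq, mul_one]
      rfl
    rw [h1.fderiv_eq, fderiv_add_const]
  refine ⟨c y₂, V₁, σ', hy₁, hV₁o, fun q hq => (hV₁ q hq).2, hsec', hpole', fun q hq =>
    (hV₁ q hq).1, fun b => ?_, ?_⟩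
  · exact (holV_chart hAt (hq' b).1).analyticAt
  · simp only [hD]
    refine LinearIndependent.of_comp
      ((ContinuousLinearMap.compL ℂ (Cm p) (Cm p) ℂ).flip (dV (Cm p) (c : Y → Cm p) y₂)).toLinearMap
      ?_
    have h1 : ((((ContinuousLinearMap.compL ℂ (Cm p) (Cm p) ℂ).flip
        (dV (Cm p) (c : Y → Cm p) y₂)).toLinearMap :
          (Cm p →L[ℂ] ℂ) → (Cm p →L[ℂ] ℂ)) ∘ fun b : Fin l =>
        fderiv ℂ (fun q => σ b.succ (c.symm q) / σ 0 (c.symm q)) (c y₂)) = fun b : Fin l =>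
        dif (Cm p) (fun w => σ b.succ w / σ 0 w) y₂ := by
      funext b
      show (fderiv ℂ (fun q => σ b.succ (c.symm q) / σ 0 (c.symm q)) (c y₂)).comp
        (dV (Cm p) (c : Y → Cm p) y₂) = dV (Cm p) (fun w => σ b.succ w / σ 0 w) y₂
      rw [← dV_comp_contDiff (G := fun q => σ b.succ (c.symm q) / σ 0 (c.symm q))
        (v := (c : Y → Cm p)) (holV_chart hAt (hq b).1) (holV_at hAt)]
      refine dV_congr ?_
      filter_upwards [c.open_source.mem_nhds hy₂s] with w hw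
      rw [c.left_inv hw]
    rw [h1]
    exact hσlz

end Vale.Agent.P281.H342.NU
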