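import Vale.Agent.P281.H342.NU.Iface
import Vale.Agent.P281.H716.ML.Rat
import Vale.Agent.P281.H723.U.Rat
import Vale.Agent.P281.H167.NU.FibX

/-! P281, theorem NU (numerical dimension, `K_X + Δ` nef): the fibre side, with rational curves. -/

open scoped Manifold ContDiff Topology ComplexOrder
open Set Filter MeasureTheory Vale.Agent.P281 Vale.Agent.P281.MF Vale.Agent.P281.ISO
open Vale.Agent.P272.K Vale.Agent.P272.K.AMP Vale.Agent.P299
open Vale.Agent.P272.K.INT (IsClosedForm intX)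
open Vale.Agent.P299.D (Ten tenPull FormM)

set_option linter.unusedSectionVars false

noncomputable section

namespace Vale.Agent.P281.H342.NU

open Vale.Agent.P281.H167 Vale.Agent.P281.H713 Vale.Agent.P281.H713.SA Vale.Agent.P281.H716
open Vale.Agent.P281.H167.RC Vale.Agent.P281.H167.ML Vale.Agent.P281.H713.TL
open Vale.Agent.P281.H167.GM (addF)
open Vale.Agent.P281.H368.MFS (IsSemiPos VolLoc ConAt InKer pull)
open Vale.Agent.P281.H716.ML (vec_of_rat)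

section lin

open Matrix

lemma ker_comb {n : ℕ} {A B : Matrix (Fin n) (Fin n) ℂ} (hA : A.PosSemidef) (hB : B.IsHermitian)
    (v : Fin n → ℂ) : (∀ j, ∑ i, v i * (A + Complex.I • B) i j = 0) ↔
      (∀ j, ∑ i, v i * A i j = 0) ∧ ∀ j, ∑ i, v i * B i j = 0 := by
  have e : ∀ M : Matrix (Fin n) (Fin n) ℂ, (∀ j, ∑ i, v i * M i j = 0) ↔ v ᵥ* M = 0 := by
    intro M
    constructor
    · intro h
      funext j
      exact h j
    · intro h j
      exact congrFun h j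
  rw [e, e, e]
  constructor
  · intro h
    have h1 : v ᵥ* A + Complex.I • (v ᵥ* B) = 0 := by
      rw [← h, vecMul_add, vecMul_smul]
    have h2 : ∀ M : Matrix (Fin n) (Fin n) ℂ, v ᵥ* M ⬝ᵥ star v = star (star v) ⬝ᵥ (M *ᵥ star v) := by
      intro M
      rw [star_star, ← dotProduct_mulVec]
    have h3 : (star (star v) ⬝ᵥ (A *ᵥ star v)) + Complex.I * (star (star v) ⬝ᵥ (B *ᵥ star v)) = 0 := by
      rw [← h2, ← h2, ← smul_eq_mul, ← smul_dotProduct, ← add_dotProduct, h1, zero_dotProduct]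
    have h4 : (star (star v) ⬝ᵥ (A *ᵥ star v)).im = 0 := hA.1.im_star_dotProduct_mulVec_self _
    have h5 : (star (star v) ⬝ᵥ (B *ᵥ star v)).im = 0 := hB.im_star_dotProduct_mulVec_self _
    have h6 : star (star v) ⬝ᵥ (A *ᵥ star v) = 0 := by
      apply Complex.ext
      · have := congrArg Complex.re h3
        simp only [Complex.add_re, Complex.mul_re, Complex.I_re, Complex.I_im, zero_mul, one_mul,
          Complex.zero_re, h5] at this
        simpa using this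
      · simpa using h4
    have h7 : A *ᵥ star v = 0 := (hA.dotProduct_mulVec_zero_iff _).1 h6
    have h8 : v ᵥ* A = 0 := by
      have h9 := congrArg star h7
      rw [star_mulVec, star_star, hA.1.eq, star_zero] at h9
      exact h9
    refine ⟨h8, ?_⟩
    rw [h8, zero_add] at h1
    exact (smul_eq_zero.1 h1).resolve_left Complex.I_ne_zero
  · rintro ⟨h1, h2⟩
    rw [vecMul_add, vecMul_smul, h1, h2, smul_zero, add_zero]

end lin


/-- **Row C**, for a closed Hermitian form `θ`. -/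
theorem ratPartN {n p d : ℕ} (hn : n = p + d) {X Z Y F : Type}
    [TopologicalSpace X] [T2Space X] [ChartedSpace (Cm n) X] [IsManifold 𝓘(ℂ, Cm n) ω X]
    [TopologicalSpace Z] [ChartedSpace (Cm n) Z] [IsManifold 𝓘(ℂ, Cm n) ω Z]
    [TopologicalSpace Y] [ChartedSpace (Cm p) Y] [IsManifold 𝓘(ℂ, Cm p) ω Y]
    [TopologicalSpace F] [ChartedSpace (Cm d) F] [IsManifold 𝓘(ℂ, Cm d) ω F]
    {j : Z → X} (hj : J.IsBigOpen (Cm n) j) {f : Z → Y} (hf : ContMDiff 𝓘(ℂ, Cm n) 𝓘(ℂ, Cm p) ω f)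
    {Δ : Set X → ℝ} (hΔ : J.IsSNC (Cm n) Δ) {m₁ : ℕ} (hm₁ : 0 < m₁) {K : Set X → ℕ}
    (hK : ∀ D, (K D : ℝ) = m₁ * Δ D) {τ : D.Ten n (m₁ * p) X} (hτ : IsTenP (m₁ * p) K τ)
    {O : Set Y} (hO : IsOpen O) (hOd : Dense O)
    (hval : ∀ z, f z ∈ O → (∀ D, Δ D ≠ 0 → j z ∉ D) → ∃ s : ℂ, s ≠ 0 ∧
      ∀ e, At e (j z) → ∀ I, τ e (e (j z)) I = s * tT f m₁ (fun z => e (j z)) I z)
    {i : F → Z} (hi : IsSmoothFibre (Cm n) (Cm p) (Cm d) f i) {α θ : D.FormM n X}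
    (hα : IsSemiPos α) (hθ : IsClosedForm θ) (hθh : ∀ e x, At e x → (θ e (e x)).IsHermitian)
    {g : X → ℂ} {s : F} (hg : J.HolAt (Cm n) g (j (i s)))
    (hgF : J.dif (Cm d) (fun s => g (j (i s))) s ≠ 0) (h0 : g (j (i s)) = 0)
    (hr : ∀ᶠ z in 𝓝 (j (i s)), g z = 0 → ∃ᶠ z' in 𝓝 z, g z' = 0 ∧ RatAtM n Δ g α θ z') :
    ConAt d (fun t => g (j (i t))) (pull (fun t => j (i t)) α) (pull (fun t => j (i t)) θ) s := by
  set Φ : D.FormM n X := fun e z => α e z + Complex.I • θ e z with hΦ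
  have hcl : IsClosedForm Φ := hα.isClosedForm.add (hθ.smul Complex.I)
  have hker : ∀ (x : X) (v : Cm n), (∀ j, ∑ i, v i * Φ (chartAt (Cm n) x)
      (chartAt (Cm n) x x) i j = 0) ↔
      InKer (α (chartAt (Cm n) x) (chartAt (Cm n) x x)) v ∧
      InKer (θ (chartAt (Cm n) x) (chartAt (Cm n) x x)) v := by
    intro x v
    have hx : At (chartAt (Cm n) x) x := ⟨chart_mem_atlas (Cm n) x, mem_chart_source (Cm n) x⟩
    exact ker_comb (hα.posSemidef _ _ hx) (hθh _ _ hx) v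
  have hr' : ∀ᶠ z in 𝓝 (j (i s)), g z = 0 → ∃ᶠ z' in 𝓝 z, g z' = 0 ∧
      RatAt n Δ (fun (_ : Fin 0) (_ : X) => (0 : ℂ)) g Φ z' := by
    filter_upwards [hr] with z hz hgz
    refine (hz hgz).mono ?_
    rintro z' ⟨h1, q, c, c', v, hc, hc0, hcΔ, hfill, hcv, hv0, hgv, hαv, hθv⟩
    exact ⟨h1, q, c, c', v, hc, hc0, hcΔ, hfill, hcv, hv0, hgv, fun b => b.elim0,
      (hker z' v).2 ⟨hαv, hθv⟩⟩
  obtain ⟨ξ, hξ0, hξg, hξβ⟩ := vec_of_rat (kerPart H455.RC.curvePart) H156.RC.closPart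
    H156.RC.densPart hn hj hf hΔ hm₁ hK hτ hO hOd hval hi hcl hg hgF h0 hr'
  obtain ⟨hα1, hθ1⟩ := (hker (j (i s)) _).1 hξβ
  have hιh : ContMDiffAt 𝓘(ℂ, Cm d) 𝓘(ℂ, Cm n) ω (fun t => j (i t)) s :=
    ContMDiffAt.comp s (hj.1 (i s)) (hi.hol s)
  have h2 := H956.mfderiv_eq_jacF hιh ξ
  have hs : At (chartAt (Cm d) s) s := H956.at_chartAt (n := d) s
  have hjs : At (chartAt (Cm n) (j (i s))) (j (i s)) := H956.at_chartAt (n := n) (j (i s))
  refine ⟨ξ, hξ0, hξg, ?_, ?_⟩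
  · refine H949.MFS.inKer_pull hα.isClosedForm.form hιh hs hjs ?_
    rw [← h2]
    exact hα1
  · refine H949.MFS.inKer_pull hθ.form hιh hs hjs ?_
    rw [← h2]
    exact hθ1

/-- **Theorem NU**, second form, with rational curves: `κ(F, K_F + Δ|_F) + κ(f | Δ) ≤ ν`. -/
def NumNefR : Prop := ∀ (n p d : ℕ) (_ : n = p + d) (X Z Y F : Type)
  [TopologicalSpace X] [T2Space X] [CompactSpace X] [ConnectedSpace X]
  [ChartedSpace (Cm n) X] [IsManifold 𝓘(ℂ, Cm n) ω X]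
  [TopologicalSpace Z] [ChartedSpace (Cm n) Z] [IsManifold 𝓘(ℂ, Cm n) ω Z]
  [TopologicalSpace Y] [T2Space Y] [ConnectedSpace Y]
  [ChartedSpace (Cm p) Y] [IsManifold 𝓘(ℂ, Cm p) ω Y]
  [TopologicalSpace F] [T2Space F] [CompactSpace F] [ConnectedSpace F]
  [ChartedSpace (Cm d) F] [IsManifold 𝓘(ℂ, Cm d) ω F]
  (χ : D.FormM n X) (_ : IsKahler χ) (Δ : Set X → ℝ) (_ : J.IsSNC (Cm n) Δ)
  (m : ℕ) (_ : 0 < m) (k : Set X → ℕ) (_ : ∀ D, (k D : ℝ) = m * Δ D)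
  (θ β : D.FormM n X) (_ : H342.NU.IsNef χ θ) (_ : IsSemiPos β) (W : X → ℝ)
  (_ : ∀ x, ∃ (r : ℕ) (g : Fin r → X → ℂ) (a : Fin r → ℕ),
    VolLoc n m (fun (D : Set X) z g => J.IsLocalEq (Cm n) D g z) k W (fun _ _ => 0) θ x g a ∧
    ∀ᶠ z in 𝓝 x, ∀ i, g i z = 0 → ConAt n (g i) β θ z)
  (j : Z → X) (_ : J.IsBigOpen (Cm n) j) (f : Z → Y) (_ : ContMDiff 𝓘(ℂ, Cm n) 𝓘(ℂ, Cm p) ω f)
  (i : F → Z) (_ : IsSmoothFibre (Cm n) (Cm p) (Cm d) f i) (_ : Function.Injective i)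
  (_ : ∀ D, Δ D ≠ 0 → ∃ t, j (i t) ∉ D)
  (_ : Dense {t | (pull (fun t => j (i t)) β (chartAt (Cm d) t) (chartAt (Cm d) t t)).PosDef})
  (_ : ∀ t : F, ∃ (r : ℕ) (g : Fin r → X → ℂ) (a : Fin r → ℕ),
    VolLoc n m (fun (D : Set X) z g => J.IsLocalEq (Cm n) D g z) k W (fun _ _ => 0) θ (j (i t)) g a ∧
    (∀ l, J.dif (Cm d) (fun t => g l (j (i t))) t ≠ 0) ∧
    ∀ l, (∀ᶠ z in 𝓝 (j (i t)), g l z = 0 →
        ∃ᶠ z' in 𝓝 z, g l z' = 0 ∧ RatAtM n Δ (g l) β θ z') ∨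
      ∀ᶠ s in 𝓝 t, g l (j (i s)) = 0 →
        ConAt d (fun t => g l (j (i t))) (pull (fun t => j (i t)) β)
          (pull (fun t => j (i t)) θ) s)
  (ν : ℕ) (c C : ℝ) (_ : 0 < c)
  (_ : ∀ᶠ s : ℝ in atTop, c * s ^ ν ≤
    intX fun (e : Chart n X) z => (addF β s θ e z).det.re)
  (_ : ∀ᶠ s : ℝ in atTop,
    (intX fun (e : Chart n X) z => (addF (addF β s θ) 1 χ e z).det.re) ≤ C * s ^ ν),
  J.kod (Cm d) (fun (D : Set X) t g => ∃ e, J.IsLocalEq (Cm n) D e (j (i t)) ∧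
      ∀ᶠ t' in 𝓝 t, g t' = e (j (i t'))) Δ + TL.kodF (n := n) (p := p) Δ j f ≤
    ((ν : ℕ∞) : WithBot ℕ∞)

theorem numNefR_of (hT : TensT) (hF : H167.NU.NumNefK) : NumNefR := by
  intro n p d hn X Z Y F _ _ _ _ _ _ _ _ _ _ _ _ _ _ _ _ _ _ _ _ χ hχ Δ hΔ m hm k hk θ β hθ hβ W
    hW j hj f hf i hi hinj hne hβd hV ν c C hc h1 h2
  by_cases hbot : kodF (n := n) (p := p) Δ j f = ⊥
  · rw [hbot, WithBot.add_bot]
    exact bot_le
  obtain ⟨t₀⟩ : Nonempty F := inferInstance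
  obtain ⟨m₁, K, τ, O, hm₁, hK, hτ, hOo, hOd, hval⟩ := H723.U.exists_tensor hT hΔ hj hf
    ⟨i t₀, hi.submersive t₀⟩ hbot
  have hιh : ∀ t, HolM (Cm d) (Cm n) (fun s => j (i s)) t := fun t =>
    ContMDiffAt.comp t (hj.1 (i t)) (hi.hol t)
  refine hF n p d hn X Z Y F χ hχ Δ hΔ m hm k hk θ β hθ hβ W hW j hj f hf i hi hinj hne hβd
    (fun t => ?_) ν c C hc h1 h2
  obtain ⟨r, g, a, hL, hg, hl⟩ := hV t
  refine ⟨r, g, a, hL, hg, eventually_all.2 fun l => ?_⟩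
  rcases hl l with hrat | h
  · have hc : ContinuousAt (fun s => j (i s)) t := (hιh t).continuousAt
    have h2 := hc.eventually (eventually_eventually_nhds.2 hrat)
    have h3 : ∀ᶠ s in 𝓝 t, J.HolAt (Cm n) (g l) (j (i s)) :=
      hc.eventually (HolV.eventually (E := Cm n) (hL.holg l).1)
    have h5 : ∀ᶠ s in 𝓝 t, J.dif (Cm d) (fun s => g l (j (i s))) s ≠ 0 := by
      have hgl : HolV (Cm d) (fun s => g l (j (i s))) t :=
        ContMDiffAt.comp t (hL.holg l).1 (hιh t)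
      have hsurj : Function.Surjective (dV (Cm d) (fun s => g l (j (i s))) t) := by
        obtain ⟨ξ, hξ⟩ : ∃ ξ, dV (Cm d) (fun s => g l (j (i s))) t ξ ≠ 0 := by
          by_contra hcon
          push Not at hcon
          exact (hg l) (ContinuousLinearMap.ext hcon)
        intro y
        refine ⟨(y / dV (Cm d) (fun s => g l (j (i s))) t ξ) • ξ, ?_⟩
        rw [map_smul, smul_eq_mul, div_mul_cancel₀ _ hξ]
      filter_upwards [surj_dV_open hgl hsurj] with s hs hcon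
      obtain ⟨ξ, hξ⟩ := hs 1
      have hcon' : dV (Cm d) (fun s => g l (j (i s))) s = 0 := hcon
      rw [hcon'] at hξ
      exact zero_ne_one hξ
    filter_upwards [h2, h3, h5] with s k2 k3 k5 hs
    exact ratPartN hn hj hf hΔ hm₁ hK hτ hOo hOd hval hi hβ hθ.1 hθ.2.1 k3 k5 hs k2
  · exact h

end Vale.Agent.P281.H342.NU
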