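import Vale.Agent.P281.H342.NU.R
import Vale.Agent.P281.H342.NU.Fin

/-! P281, theorem NU, second form, with rational curves: closed. -/

namespace Vale.Agent.P281.H342.NU

open Vale.Agent.P281

/-- **Theorem NU**, second form, with rational curves. -/
theorem numNefR : NumNefR := numNefR_of H498.tensT (H167.NU.numNefK_of numNef)

end Vale.Agent.P281.H342.NU
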